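import Vale.Agent.P054.T3.H461.PsUp
import Vale.Agent.P054.T3.H854.Top
import Vale.Agent.P054.T3.H900.Three

set_option autoImplicit false
set_option linter.all false

/-!
# P054 / T3: the lossless bound in all dimensions `d ≥ 3`
-/

namespace Vale.Agent.P054.T3.H461

open Vale.Agent.P054.T3.H854

/-- `d ≥ 4` -/
theorem mainIneqZ (n : ℕ) (hn : 3 ≤ n) : MainIneqZ n :=
  mainIneqZ_of_start hn (startPS_of hn (psUp n hn))

/-- **the full statement**, `d ≥ 3` -/
theorem txt_full (d : ℕ) (hd : 3 ≤ d) : Txt g d :=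
  txt_all Vale.Agent.P054.T3.H900.stepL2 mainIneqZ d hd

end Vale.Agent.P054.T3.H461
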