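import Vale.Agent.P054.T3.H461.WU

set_option autoImplicit false
set_option linter.unusedSectionVars false
set_option linter.unusedVariables false

/-!
# P054 / T3: lossless lower bound (LO) and [GOOD] at unboundedly many scales

`b = β ^ L` and `β` are constants; the constants below do not depend on the number `K₀` of levels.
-/

namespace Vale.Agent.P054.T3.H461

open Finset MvPolynomial Module
open Vale.Agent.P054.T2.H307 (gfr gfr_mono_set gr gr_mono gr_le fib mem_fib
  fib_mono fib_subset self_mem_fib van van_mono mem_van pts mem_pts pts_mono pts_nonempty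
  lo_sub pow_le_gain)
open Vale.Agent.P054.T2.H580 (rkF hilbF IsFilt isFilt_total kap fam_good fib_eq one_le_rkF
  Vw_one_eq Vw_mono pderiv_mem_Vw X_mem_Vw)
open Vale.Agent.P054.T2.H441 (resA resA_apply)
open Vale.Agent.P054.T2.H930 (germ germ_le_J finrank_quot_J)

/-- the constant needed for `b` -/
def bmin (N : ℕ) : ℕ := (4 * (N + 2)) ^ N * N.factorial + N + 4

theorem bmin_ge (N : ℕ) : N + 4 ≤ bmin N := by unfold bmin; omega

theorem bmin_ge1 (N : ℕ) : (N + 2) ^ N * N.factorial ≤ bmin N := by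
  have h : (N + 2) ^ N * N.factorial ≤ (4 * (N + 2)) ^ N * N.factorial :=
    Nat.mul_le_mul_right _ (Nat.pow_le_pow_left (by omega) _)
  unfold bmin; omega

theorem bmin_ge2 (N : ℕ) : 4 ^ N * N.factorial ≤ bmin N := by
  have h : 4 ^ N * N.factorial ≤ (4 * (N + 2)) ^ N * N.factorial :=
    Nat.mul_le_mul_right _ (Nat.pow_le_pow_left (by omega) _)
  unfold bmin; omega

theorem bmin_ge3 (N : ℕ) : (2 * (N + 2)) ^ N < bmin N := by
  have h : (2 * (N + 2)) ^ N * 1 ≤ (4 * (N + 2)) ^ N * N.factorial :=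
    Nat.mul_le_mul (Nat.pow_le_pow_left (by omega) _) (Nat.factorial_pos _)
  unfold bmin; omega

variable {ι S σ K : Type*} [Field K] [Fintype σ] [DecidableEq σ]

section defs

variable (x : ι → σ → K) (p : ι → S) (b β : ℕ) (E : Finset ι) (v : ℕ → ℕ)

/-- lower bound at the level `i` for the sets of density `≥ β ^ (-a)`, with the loss `b ^ Λ` -/
def LO (i a Λ : ℕ) : Prop :=
  ∀ B ⊆ E, B.Nonempty → E.card ≤ β ^ a * B.card → ∃ e ∈ B,
    b ^ (∑ l ∈ range i, (Fintype.card σ - v l)) ≤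
      b ^ Λ * rkF (restrictTotalDegree σ K) (pts x (fib p B (p e))) (b ^ i)

/-- [GOOD] at the level `i` with density `β ^ (-a)` for all subsets -/
def GOOD {c : ℕ} (f : S → Fin c → MvPolynomial σ K) (i a : ℕ) : Prop :=
  ∀ Y ⊆ E, ∀ Y' ⊆ Y, (∀ e ∈ Y', ∃ F : MvPolynomial σ K, F.totalDegree ≤ b ^ i ∧
    (∀ e' ∈ Y, p e' = p e → eval (x e') F = 0) ∧ F ∉ germ (x e) (f (p e))) →
    β ^ a * Y'.card ≤ E.card

end defs

variable {x : ι → σ → K} {p : ι → S} {b β : ℕ} {E : Finset ι} {v : ℕ → ℕ}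

theorem LO.mono {i a Λ a' Λ' : ℕ} (h : LO x p b β E v i a Λ) (hb : 1 ≤ b) (hβ : 1 ≤ β)
    (ha : a' ≤ a) (hΛ : Λ ≤ Λ') : LO x p b β E v i a' Λ' := by
  intro B hB hBn hc
  obtain ⟨e, he, h1⟩ := h B hB hBn
    (hc.trans (Nat.mul_le_mul_right _ (Nat.pow_le_pow_right hβ ha)))
  exact ⟨e, he, h1.trans (Nat.mul_le_mul_right _ (Nat.pow_le_pow_right hb hΛ))⟩

theorem LO.zero [CharZero K] [Infinite K] (a : ℕ) : LO x p b β E v 0 a 0 := by
  intro B _ hBn _
  obtain ⟨e, he⟩ := hBn
  refine ⟨e, he, ?_⟩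
  simp only [Finset.range_zero, Finset.sum_empty, pow_zero, one_mul]
  exact one_le_rkF isFilt_total (pts_nonempty ⟨e, self_mem_fib he⟩) _

theorem LO.up {i a Λ : ℕ} (h : LO x p b β E v i a Λ) (hb : 1 ≤ b) {i' : ℕ} (hi : i ≤ i') :
    LO x p b β E v i' a (Λ + Fintype.card σ * (i' - i)) := by
  intro B hB hBn hc
  obtain ⟨e, he, h1⟩ := h B hB hBn hc
  refine ⟨e, he, ?_⟩
  have hsum : ∑ l ∈ range i', (Fintype.card σ - v l) ≤
      (∑ l ∈ range i, (Fintype.card σ - v l)) + Fintype.card σ * (i' - i) := by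
    rw [← Finset.sum_range_add_sum_Ico _ hi]
    refine Nat.add_le_add_left ?_ _
    calc ∑ l ∈ Finset.Ico i i', (Fintype.card σ - v l)
        ≤ ∑ l ∈ Finset.Ico i i', Fintype.card σ := Finset.sum_le_sum fun l _ => Nat.sub_le _ _
      _ = Fintype.card σ * (i' - i) := by
          rw [Finset.sum_const, Nat.card_Ico, smul_eq_mul, mul_comm]
  have hrk : rkF (restrictTotalDegree σ K) (pts x (fib p B (p e))) (b ^ i) ≤
      rkF (restrictTotalDegree σ K) (pts x (fib p B (p e))) (b ^ i') :=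
    (isFilt_total (k := K) (σ := σ)).rkF_mono_deg _ (Nat.pow_le_pow_right hb hi)
  calc b ^ (∑ l ∈ range i', (Fintype.card σ - v l))
      ≤ b ^ ((∑ l ∈ range i, (Fintype.card σ - v l)) + Fintype.card σ * (i' - i)) :=
        Nat.pow_le_pow_right hb hsum
    _ = b ^ (Fintype.card σ * (i' - i)) * b ^ (∑ l ∈ range i, (Fintype.card σ - v l)) := by
        rw [pow_add, mul_comm]
    _ ≤ b ^ (Fintype.card σ * (i' - i)) *
        (b ^ Λ * rkF (restrictTotalDegree σ K) (pts x (fib p B (p e))) (b ^ i')) :=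
        Nat.mul_le_mul_left _ (h1.trans (Nat.mul_le_mul_left _ hrk))
    _ = _ := by rw [pow_add]; ring

/-- the chain towards the set of constant gradient rank at one level -/
noncomputable def chain (x : ι → σ → K) (p : ι → S) (T w : ℕ) (B : Finset ι) : ℕ → Finset ι
  | 0 => B
  | m + 1 => by
      classical
      exact (chain x p T w B m).filter
        (fun e => gfr x p (restrictTotalDegree σ K) T (chain x p T w B m) e = w)

theorem mem_chain_succ {T w : ℕ} {B : Finset ι} {m : ℕ} {e : ι} :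
    e ∈ chain x p T w B (m + 1) ↔ e ∈ chain x p T w B m ∧
      gfr x p (restrictTotalDegree σ K) T (chain x p T w B m) e = w := by
  classical
  rw [chain, Finset.mem_filter]

theorem chain_succ_subset {T w : ℕ} {B : Finset ι} (m : ℕ) :
    chain x p T w B (m + 1) ⊆ chain x p T w B m := fun _ he => (mem_chain_succ.1 he).1

theorem chain_subset {T w : ℕ} {B : Finset ι} (m : ℕ) : chain x p T w B m ⊆ B := by
  induction m with
  | zero => exact Finset.Subset.refl _
  | succ m ih => exact (chain_succ_subset m).trans ih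

theorem FamU.card_chain {M K₀ : ℕ} (h : FamU x p b β M K₀ E v) {i : ℕ} (hi : i ≤ K₀)
    {B : Finset ι} (hB : B ⊆ E) (m : ℕ) :
    β ^ rem K₀ v i * B.card ≤
      β ^ rem K₀ v i * (chain x p (b ^ i) (v i) B m).card + m * (β ^ M * E.card) := by
  classical
  induction m with
  | zero => simp [chain]
  | succ m ih =>
    set D := chain x p (b ^ i) (v i) B m with hD
    have hDE : D ⊆ E := (chain_subset m).trans hB
    set R := D.filter (fun e => ¬ gfr x p (restrictTotalDegree σ K) (b ^ i) D e = v i) with hR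
    have hRD : R ⊆ D := Finset.filter_subset _ _
    have h1 : D.card = (chain x p (b ^ i) (v i) B (m + 1)).card + R.card := by
      rw [← Finset.card_filter_add_card_filter_not (s := D)
        (p := fun e => gfr x p (restrictTotalDegree σ K) (b ^ i) D e = v i)]
      congr 2
    have h2 : β ^ rem K₀ v i * R.card ≤ β ^ M * E.card := by
      refine h.small i hi R (hRD.trans hDE) fun e he => ?_
      obtain ⟨he1, he2⟩ := Finset.mem_filter.1 he
      have h3 := h.le i hi D hDE e he1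
      have h4 := gfr_mono_set x p (restrictTotalDegree σ K) (b ^ i) hRD e
      omega
    rw [h1, Nat.mul_add] at ih
    have h5 : (m + 1) * (β ^ M * E.card) = m * (β ^ M * E.card) + β ^ M * E.card := by ring
    omega

section

variable [CharZero K] [Infinite K]

theorem der_total (n : ℕ) (i : σ) (F : MvPolynomial σ K) (hF : F ∈ restrictTotalDegree σ K n) :
    pderiv i F ∈ restrictTotalDegree σ K n := by
  rw [← Vw_one_eq] at hF ⊢
  exact Vw_mono _ (by omega) (pderiv_mem_Vw _ hF i)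

theorem X_total (i : σ) : (X i : MvPolynomial σ K) ∈ restrictTotalDegree σ K 1 := by
  rw [← Vw_one_eq]
  exact X_mem_Vw _ i

/-- **(jump)** from the level `i₁` to the level `i₂` with one chain, inside a stage -/
theorem LO.jump {L M K₀ : ℕ} (hbβ : b = β ^ L) (hβ : 2 ≤ β) (hb : bmin (Fintype.card σ) ≤ b)
    (h : FamU x p b β M K₀ E v) {i₁ i₂ a Λ : ℕ} (hi : i₁ < i₂) (hi₂ : i₂ ≤ K₀)
    (hv : v i₂ = v i₁) (hlo : LO x p b β E v i₁ (a + 1) Λ)
    (hrem : L * (i₂ - i₁) + a + 1 + M ≤ rem K₀ v i₂) :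
    LO x p b β E v i₂ a (Λ + 1) := by
  classical
  intro B hB hBn hc
  set N := Fintype.card σ with hN
  have hbN := bmin_ge N
  have hb1 : 1 ≤ b := by omega
  set q := b ^ (i₂ - i₁) with hq
  have hqb : b ≤ q := by
    calc b = b ^ 1 := (pow_one b).symm
      _ ≤ b ^ (i₂ - i₁) := Nat.pow_le_pow_right hb1 (by omega)
  set k := (q - 1) / (N + 2) with hk
  have hk0 : 0 < k := Nat.div_pos (by omega) (by omega)
  have hk1 : k * (N + 2) + 1 ≤ q := by
    have := Nat.div_mul_le_self (q - 1) (N + 2)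
    rw [← hk] at this
    omega
  have hk2 : q ≤ (N + 2) * (k + 1) := by
    have := Nat.lt_mul_div_succ (q - 1) (show 0 < N + 2 by omega)
    rw [← hk] at this
    omega
  have hkq : k ≤ q := by
    have h1 : k * 1 ≤ k * (N + 2) := Nat.mul_le_mul_left _ (by omega)
    omega
  set D := chain x p (b ^ i₂) (v i₂) B with hD
  have hcard := h.card_chain hi₂ hB k
  -- the chain is dense
  have hdense : E.card ≤ β ^ (a + 1) * (D k).card := by
    have h1 : k * (β ^ M * E.card) ≤ β ^ (L * (i₂ - i₁) + M) * (β ^ a * B.card) := by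
      calc k * (β ^ M * E.card) ≤ q * (β ^ M * (β ^ a * B.card)) :=
            Nat.mul_le_mul hkq (Nat.mul_le_mul_left _ hc)
        _ = β ^ (L * (i₂ - i₁) + M) * (β ^ a * B.card) := by
            rw [hq, hbβ, ← pow_mul, pow_add]; ring
    obtain ⟨s, hs⟩ := Nat.exists_eq_add_of_le hrem
    have h2 : β ^ rem K₀ v i₂ = β ^ s * (β ^ (L * (i₂ - i₁) + M) * (β ^ a * β)) := by
      rw [hs, ← pow_succ, ← pow_add, ← pow_add]
      congr 1
      ring
    have hs1 : 1 ≤ β ^ s := Nat.one_le_pow _ _ (by omega)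
    have hpos : 0 < β ^ s * (β ^ (L * (i₂ - i₁) + M) * β ^ a) := by positivity
    have h3 : β * B.card ≤ β * (D k).card + B.card := by
      refine Nat.le_of_mul_le_mul_left ?_ hpos
      calc β ^ s * (β ^ (L * (i₂ - i₁) + M) * β ^ a) * (β * B.card)
          = β ^ rem K₀ v i₂ * B.card := by rw [h2]; ring
        _ ≤ β ^ rem K₀ v i₂ * (D k).card + k * (β ^ M * E.card) := hcard
        _ ≤ β ^ rem K₀ v i₂ * (D k).card +
            β ^ s * (β ^ (L * (i₂ - i₁) + M) * (β ^ a * B.card)) := by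
            refine Nat.add_le_add_left (h1.trans ?_) _
            exact Nat.le_mul_of_pos_left _ hs1
        _ = _ := by rw [h2]; ring
    have h4 : B.card ≤ β * (D k).card := by
      have h5 : 2 * B.card ≤ β * B.card := Nat.mul_le_mul_right _ hβ
      omega
    calc E.card ≤ β ^ a * B.card := hc
      _ ≤ β ^ a * (β * (D k).card) := Nat.mul_le_mul_left _ h4
      _ = _ := by rw [pow_succ]; ring
  have hDn : (D k).Nonempty := by
    rw [← Finset.card_pos]
    by_contra hcon
    have h0 : (D k).card = 0 := by omega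
    rw [h0, mul_zero] at hdense
    have h1 := Finset.card_le_card hB
    have h2 := hBn.card_pos
    omega
  have hDB : D k ⊆ B := chain_subset k
  obtain ⟨e, he, hle⟩ := hlo (D k) (hDB.trans hB) hDn hdense
  refine ⟨e, hDB he, ?_⟩
  have hval₂ : ∀ m, ∀ e' ∈ D (m + 1),
      gfr x p (restrictTotalDegree σ K) (b ^ i₂) (D m) e' = v i₂ :=
    fun m e' he' => (mem_chain_succ.1 he').2
  have hval₁ : ∀ m, ∀ e' ∈ D (m + 1),
      gfr x p (restrictTotalDegree σ K) (b ^ i₁) (D m) e' = v i₂ := by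
    intro m e' he'
    have h1 := hval₂ m e' he'
    have h2 := h.le i₁ (hi.le.trans hi₂) (D m) ((chain_subset m).trans hB) e'
      (chain_succ_subset m he')
    have h3 : gfr x p (restrictTotalDegree σ K) (b ^ i₁) (D m) e' ≤
        gfr x p (restrictTotalDegree σ K) (b ^ i₂) (D m) e' :=
      gr_mono (Finset.Subset.refl _) (rtd_mono (Nat.pow_le_pow_right hb1 hi.le)) _
    omega
  have hpow : q * b ^ i₁ = b ^ i₂ := by
    rw [hq, ← pow_add]; congr 1; omega
  have hsub := lo_sub (V := restrictTotalDegree σ K) isFilt_total der_total X_total x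
    (fun m => fib p (D m) (p e)) k q (N + 2) hk0 hk1 hk2 (by omega)
    (fun m => fib_mono (chain_succ_subset m) _) (v i₂) (b ^ i₁) (b ^ i₂)
    (Nat.one_le_pow _ _ hb1)
    (by
      intro e' he'
      obtain ⟨h1, h2⟩ := mem_fib.1 he'
      have h3 := hval₁ 0 e' h1
      unfold gfr at h3
      rwa [h2] at h3)
    (by
      intro m _ e' he'
      obtain ⟨h1, h2⟩ := mem_fib.1 he'
      have h3 := hval₂ m e' h1
      unfold gfr at h3
      rwa [h2] at h3)
    (T := b ^ i₁) le_rfl hpow.le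
  rw [hpow] at hsub
  have hD0 : D 0 = B := rfl
  simp only [hD0] at hsub
  have hsum : ∑ l ∈ range i₂, (N - v l) = (∑ l ∈ range i₁, (N - v l)) + (i₂ - i₁) * (N - v i₂) := by
    rw [← Finset.sum_range_add_sum_Ico _ hi.le]
    congr 1
    have h1 : ∀ l ∈ Finset.Ico i₁ i₂, (N - v l) = N - v i₂ := by
      intro l hl
      obtain ⟨h2, h3⟩ := Finset.mem_Ico.1 hl
      have h4 := h.mono i₁ l h2 (by omega)
      have h5 := h.mono l i₂ h3.le hi₂
      omega
    rw [Finset.sum_congr rfl h1, Finset.sum_const, Nat.card_Ico, smul_eq_mul]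
  have hCb : (N + 2) ^ N * N.factorial ≤ b := (bmin_ge1 N).trans hb
  calc b ^ (∑ l ∈ range i₂, (N - v l))
      = q ^ (N - v i₂) * b ^ (∑ l ∈ range i₁, (N - v l)) := by
        rw [hsum, pow_add, hq, ← pow_mul, mul_comm]
    _ ≤ q ^ (N - v i₂) * (b ^ Λ *
        rkF (restrictTotalDegree σ K) (pts x (fib p (D k) (p e))) (b ^ i₁)) :=
        Nat.mul_le_mul_left _ hle
    _ = b ^ Λ * (q ^ (N - v i₂) *
        rkF (restrictTotalDegree σ K) (pts x (fib p (D k) (p e))) (b ^ i₁)) := by ring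
    _ ≤ b ^ Λ * ((N + 2) ^ N * N.factorial *
        rkF (restrictTotalDegree σ K) (pts x (fib p B (p e))) (b ^ i₂)) :=
        Nat.mul_le_mul_left _ hsub
    _ ≤ b ^ Λ * (b * rkF (restrictTotalDegree σ K) (pts x (fib p B (p e))) (b ^ i₂)) :=
        Nat.mul_le_mul_left _ (Nat.mul_le_mul_right _ hCb)
    _ = _ := by rw [pow_succ]; ring

/-- **(good)** from a lower bound at a later level of the stage -/
theorem GOOD.of_lo {M K₀ : ℕ} (hβ : 2 ≤ β) (hb : bmin (Fintype.card σ) ≤ b)
    (h : FamU x p b β M K₀ E v) (hE : E.Nonempty) {st : ℕ} (hst : st ≤ K₀)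
    (f : S → Fin (v st) → MvPolynomial σ K)
    (hf : ∀ s, ∀ j : Fin (v st), f s j ∈ van x (fib p E s)
      (restrictTotalDegree σ K (b ^ kap (st + 1) v (j : ℕ))))
    (hind : ∀ e ∈ E, LinearIndependent K
      (fun j => Vale.Agent.P054.T2.H930.grad (x e) (f (p e) j)))
    {i₂ : ℕ} (hsti : st ≤ i₂) (hi₂ : i₂ ≤ K₀) (hconst : ∀ l, st ≤ l → l < i₂ → v l = v st)
    {a Λ : ℕ} (hlo : LO x p b β E v i₂ (a + 1) Λ) {i : ℕ} (hi : i + Λ + 1 ≤ i₂) :
    GOOD x p b β E f i a := by
  classical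
  intro Y hY Y' hY' hbad
  by_contra hcon
  push Not at hcon
  have hbN := bmin_ge (Fintype.card σ)
  have hb1 : 1 ≤ b := by omega
  have hY'E : Y' ⊆ E := hY'.trans hY
  have key := fam_good p x Y' b hb1 st i₂ hsti v
    (fun k l hkl hl => h.mono k l hkl (hl.trans hst)) hconst (h.le_card hE hst) f
    (fun s j => by
      refine van_mono ?_ le_rfl (hf s j)
      intro e he
      obtain ⟨h1, h2⟩ := Finset.mem_filter.1 he
      exact mem_fib.2 ⟨hY'E h1, h2⟩)
    (fun e he => hind e (hY'E he)) (Λ := b ^ Λ) (β' := 2)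
    (by
      intro B hB hc
      have hBn : B.Nonempty := by
        rw [← Finset.card_pos]
        omega
      obtain ⟨e, he, h1⟩ := hlo B (hB.trans hY'E) hBn (by
        have h2 : E.card ≤ β ^ a * (2 * B.card) :=
          hcon.le.trans (Nat.mul_le_mul_left _ hc.le)
        have h3 : β ^ a * (2 * B.card) ≤ β ^ (a + 1) * B.card := by
          calc β ^ a * (2 * B.card) ≤ β ^ a * (β * B.card) :=
                Nat.mul_le_mul_left _ (Nat.mul_le_mul_right _ hβ)
            _ = _ := by rw [pow_succ]; ring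
        exact h2.trans h3)
      refine ⟨e, he, ?_⟩
      rwa [fib_eq p B (p e)] at h1)
    i (by omega)
    (by
      calc (2 * (Fintype.card σ + 2)) ^ Fintype.card σ * b ^ Λ < b * b ^ Λ :=
            Nat.mul_lt_mul_of_pos_right ((bmin_ge3 _).trans_le hb) (Nat.pow_pos hb1)
        _ = b ^ (Λ + 1) := by rw [pow_succ]; ring
        _ ≤ b ^ (i₂ - i) := Nat.pow_le_pow_right hb1 (by omega))
    Y' (Finset.Subset.refl _)
    (by
      intro e he
      obtain ⟨F, h1, h2, h3⟩ := hbad e he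
      exact ⟨F, h1, fun e' he' => h2 e' (hY' he'), h3⟩)
  have h0 : Y'.card = 0 := by omega
  rw [h0, mul_zero] at hcon
  omega

omit [Fintype σ] [DecidableEq σ] [CharZero K] [Infinite K] in
/-- every `F` vanishing on `Z` is in `I`: the rank on `Z` is at least the Hilbert function -/
theorem hilbF_le_rkF [Finite σ] {V : ℕ → Submodule K (MvPolynomial σ K)} (hV : IsFilt V)
    (Z : Finset (σ → K)) (I : Ideal (MvPolynomial σ K)) (n : ℕ)
    (h : ∀ F ∈ V n, (∀ z ∈ Z, eval z F = 0) → F ∈ I) : hilbF V I n ≤ rkF V Z n := by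
  classical
  have hfin := hV.fin n
  have h1 := LinearMap.finrank_range_add_finrank_ker ((resA Z).toLinearMap.domRestrict (V n))
  have h2 := LinearMap.finrank_range_add_finrank_ker
    ((Ideal.Quotient.mkₐ K I).toLinearMap.domRestrict (V n))
  have hker : LinearMap.ker ((resA Z).toLinearMap.domRestrict (V n)) ≤ LinearMap.ker
    ((Ideal.Quotient.mkₐ K I).toLinearMap.domRestrict (V n)) := by
    intro F hF
    rw [LinearMap.mem_ker] at hF ⊢
    change resA Z (F : MvPolynomial σ K) = 0 at hF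
    change Ideal.Quotient.mk _ (F : MvPolynomial σ K) = 0
    rw [Ideal.Quotient.eq_zero_iff_mem]
    refine h _ F.2 fun z hz => ?_
    have h3 := congrFun hF ⟨z, hz⟩
    rwa [resA_apply] at h3
  have h4 := Submodule.finrank_mono hker
  rw [LinearMap.range_domRestrict] at h1 h2
  unfold hilbF rkF
  omega

/-- **(LO) from [GOOD]**: jets of all orders, the constant does not accumulate -/
theorem LO.of_good {M K₀ : ℕ} (hβ : 2 ≤ β) (hb : bmin (Fintype.card σ) ≤ b)
    (h : FamU x p b β M K₀ E v) {st : ℕ} (hst : st ≤ K₀)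
    (f : S → Fin (v st) → MvPolynomial σ K)
    (hf : ∀ s, ∀ j : Fin (v st), f s j ∈ van x (fib p E s)
      (restrictTotalDegree σ K (b ^ kap (st + 1) v (j : ℕ))))
    (hind : ∀ e ∈ E, LinearIndependent K
      (fun j => Vale.Agent.P054.T2.H930.grad (x e) (f (p e) j)))
    {i : ℕ} (hsti : st ≤ i) (hconst : ∀ l, st ≤ l → l < i → v l = v st)
    {a Λ : ℕ} (hlo : LO x p b β E v st (a + 1) Λ) (hgood : GOOD x p b β E f i (a + 1)) :
    LO x p b β E v i a (Λ + 1) := by
  classical
  rcases hsti.eq_or_lt with rfl | hlt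
  · exact hlo.mono (by have := bmin_ge (Fintype.card σ); omega) (by omega) (by omega) (by omega)
  intro B hB hBn hc
  set N := Fintype.card σ with hN
  have hbN := bmin_ge N
  have hb1 : 1 ≤ b := by omega
  set V := restrictTotalDegree σ K with hV
  have hVf : IsFilt V := isFilt_total
  set Bad := B.filter (fun e => ∃ F : MvPolynomial σ K, F.totalDegree ≤ b ^ i ∧
    (∀ e' ∈ B, p e' = p e → eval (x e') F = 0) ∧ F ∉ germ (x e) (f (p e))) with hBad
  set B' := B.filter (fun e => ¬ ∃ F : MvPolynomial σ K, F.totalDegree ≤ b ^ i ∧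
    (∀ e' ∈ B, p e' = p e → eval (x e') F = 0) ∧ F ∉ germ (x e) (f (p e))) with hB'
  have hB'B : B' ⊆ B := Finset.filter_subset _ _
  have h1 : β ^ (a + 1) * Bad.card ≤ E.card :=
    hgood B hB Bad (Finset.filter_subset _ _) fun e he => (Finset.mem_filter.1 he).2
  have h2 : Bad.card + B'.card = B.card := Finset.card_filter_add_card_filter_not _
  have h3 : β * Bad.card ≤ B.card := by
    refine Nat.le_of_mul_le_mul_left ?_ (Nat.pow_pos (n := a) (show 0 < β by omega))
    calc β ^ a * (β * Bad.card) = β ^ (a + 1) * Bad.card := by rw [pow_succ]; ring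
      _ ≤ β ^ a * B.card := h1.trans hc
  have h4 : B.card ≤ β * B'.card := by
    have h5 : 2 * B.card ≤ β * B.card := Nat.mul_le_mul_right _ hβ
    have h6 : β * B.card = β * Bad.card + β * B'.card := by rw [← h2]; ring
    omega
  have hdense : E.card ≤ β ^ (a + 1) * B'.card := by
    calc E.card ≤ β ^ a * B.card := hc
      _ ≤ β ^ a * (β * B'.card) := Nat.mul_le_mul_left _ h4
      _ = _ := by rw [pow_succ]; ring
  have hB'n : B'.Nonempty := by
    rw [← Finset.card_pos]
    by_contra hcon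
    have h0 : B'.card = 0 := by omega
    rw [h0, mul_zero] at h4
    have := hBn.card_pos
    omega
  obtain ⟨e, he, hle⟩ := hlo B' (hB'B.trans hB) hB'n hdense
  refine ⟨e, hB'B he, ?_⟩
  set s := p e with hs
  set q := b ^ (i - st) with hq
  have hqb : b ≤ q := by
    calc b = b ^ 1 := (pow_one b).symm
      _ ≤ b ^ (i - st) := Nat.pow_le_pow_right hb1 (by omega)
  obtain ⟨k, hk⟩ : ∃ k, q / 2 = k + 1 := ⟨q / 2 - 1, by omega⟩
  have hk1 : 2 * (k + 1) ≤ q := by omega
  have hk2 : q ≤ 4 * (k + 1) := by omega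
  -- the germs
  set I : Ideal (MvPolynomial σ K) := ⨅ z ∈ pts x (fib p B' s), germ z (f s) with hI
  have hlow := hVf.lo (w₀ := 1) X_total I (pts x (fib p B' s))
    (fun z => Vale.Agent.P054.T2.H930.J z (f s) (k + 1)) (T := b ^ st) (k := k) (e := N - v st)
    (fun z _ => le_sup_right)
    (fun z hz F hF _ => germ_le_J z (f s) (k + 1) ((iInf₂_le z hz : I ≤ germ z (f s)) hF))
    (by
      intro z hz
      obtain ⟨e', he', rfl⟩ := mem_pts.1 hz
      obtain ⟨h5, h6⟩ := mem_fib.1 he'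
      have h7 : e' ∈ E := hB (hB'B h5)
      rw [finrank_quot_J (x e') (f s)
        (fun j => (mem_van.1 (hf s j)).2 e' (mem_fib.2 ⟨h7, h6⟩))
        (by rw [← h6]; exact hind e' h7) k])
  have hlev : (k + 1) * b ^ st + k * 1 ≤ b ^ i := by
    have h5 : 1 ≤ b ^ st := Nat.one_le_pow _ _ hb1
    have h6 : k * 1 ≤ (k + 1) * b ^ st := Nat.mul_le_mul (Nat.le_succ k) h5
    calc (k + 1) * b ^ st + k * 1 ≤ (2 * (k + 1)) * b ^ st := by
          have : (2 * (k + 1)) * b ^ st = (k + 1) * b ^ st + (k + 1) * b ^ st := by ring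
          omega
      _ ≤ q * b ^ st := Nat.mul_le_mul_right _ hk1
      _ = b ^ i := by rw [hq, ← pow_add]; congr 1; omega
  have hup : hilbF V I (b ^ i) ≤ rkF V (pts x (fib p B s)) (b ^ i) := by
    refine hilbF_le_rkF hVf _ _ _ fun F hF hFz => ?_
    rw [hI]
    simp only [Submodule.mem_iInf]
    intro z hz
    obtain ⟨e', he', rfl⟩ := mem_pts.1 hz
    obtain ⟨h5, h6⟩ := mem_fib.1 he'
    by_contra hcon
    refine (Finset.mem_filter.1 h5).2 ⟨F, (mem_restrictTotalDegree _ _ _).1 hF, ?_, ?_⟩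
    · intro e'' he'' hpe
      exact hFz _ (mem_pts.2 ⟨e'', mem_fib.2 ⟨he'', hpe.trans h6⟩, rfl⟩)
    · rw [h6]
      exact hcon
  have hgain := pow_le_gain q 4 k (N - v st) N hk2 (by omega) (by omega)
  have hsum : ∑ l ∈ range i, (N - v l) = (∑ l ∈ range st, (N - v l)) + (i - st) * (N - v st) := by
    rw [← Finset.sum_range_add_sum_Ico _ hlt.le]
    congr 1
    have h5 : ∀ l ∈ Finset.Ico st i, (N - v l) = N - v st := by
      intro l hl
      obtain ⟨h6, h7⟩ := Finset.mem_Ico.1 hl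
      rw [hconst l h6 h7]
    rw [Finset.sum_congr rfl h5, Finset.sum_const, Nat.card_Ico, smul_eq_mul]
  have hCb : 4 ^ N * N.factorial ≤ b := (bmin_ge2 N).trans hb
  set R := rkF V (pts x (fib p B' s)) (b ^ st) with hR
  set ch := (k + (N - v st)).choose (N - v st) with hch
  calc b ^ (∑ l ∈ range i, (N - v l))
      = q ^ (N - v st) * b ^ (∑ l ∈ range st, (N - v l)) := by
        rw [hsum, pow_add, hq, ← pow_mul, mul_comm]
    _ ≤ (4 ^ N * N.factorial * ch) * (b ^ Λ * R) := Nat.mul_le_mul hgain hle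
    _ = b ^ Λ * ((4 ^ N * N.factorial) * (R * ch)) := by ring
    _ ≤ b ^ Λ * (b * hilbF V I ((k + 1) * b ^ st + k * 1)) :=
        Nat.mul_le_mul_left _ (Nat.mul_le_mul hCb hlow)
    _ ≤ b ^ Λ * (b * rkF V (pts x (fib p B s)) (b ^ i)) :=
        Nat.mul_le_mul_left _ (Nat.mul_le_mul_left _ ((hVf.hilbF_mono I hlev).trans hup))
    _ = _ := by rw [pow_succ]; ring

end

end Vale.Agent.P054.T3.H461
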