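import Vale.Agent.P054.T3.H461.LL

set_option autoImplicit false
set_option linter.unusedSectionVars false
set_option linter.unusedVariables false

/-!
# P054 / T3: lossless (LO) and [GOOD]: the induction over the stages
-/

namespace Vale.Agent.P054.T3.H461

open Finset MvPolynomial Module
open Vale.Agent.P054.T2.H307 (gfr gfr_mono_set gr gr_mono gr_le fib mem_fib
  fib_mono fib_subset self_mem_fib van van_mono mem_van pts mem_pts pts_mono pts_nonempty)
open Vale.Agent.P054.T2.H580 (rkF hilbF IsFilt isFilt_total kap)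
open Vale.Agent.P054.T2.H930 (germ)

/-- slope of the distance to the next drop needed for [GOOD] -/
def stM (L A' : ℕ) : ℕ := (L + 1) * A' + 1

/-- constant of the distance to the next drop needed for [GOOD] -/
def stD (L M A' C' : ℕ) : ℕ := L * (3 * stM L A') + (L + 1) * (3 * A' + C' + 3) + 2 + M

/-- slope of the loss of (LO) for the levels with values `< w` -/
def stA (N L : ℕ) : ℕ → ℕ
  | 0 => 0
  | w + 1 => stA N L w + N * stM L (stA N L w)

/-- constant of the loss of (LO) for the levels with values `< w` -/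
def stC (N L M : ℕ) : ℕ → ℕ
  | 0 => 0
  | w + 1 => stA N L w + (stC N L M w + N) + 1 +
      N * (stM L (stA N L w) + stD L M (stA N L w) (stC N L M w + N))

theorem stA_mono (N L w : ℕ) : stA N L w ≤ stA N L (w + 1) := by
  show stA N L w ≤ stA N L w + N * stM L (stA N L w)
  omega

theorem stC_mono (N L M w : ℕ) : stC N L M w ≤ stC N L M (w + 1) := by
  show stC N L M w ≤ stA N L w + (stC N L M w + N) + 1 +
      N * (stM L (stA N L w) + stD L M (stA N L w) (stC N L M w + N))
  omega

section

variable {ι S σ K : Type*} [Field K] [Fintype σ] [DecidableEq σ] [CharZero K] [Infinite K]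
variable {x : ι → σ → K} {p : ι → S} {b β : ℕ} {E : Finset ι} {v : ℕ → ℕ}

/-- **[GOOD] in a stage** -/
theorem stage_good {L M K₀ : ℕ} (hbβ : b = β ^ L) (hβ : 2 ≤ β) (hb : bmin (Fintype.card σ) ≤ b)
    (h : FamU x p b β M K₀ E v) (hE : E.Nonempty) {st en : ℕ} (hst : st ≤ K₀)
    (hen : en ≤ K₀ + 1) (hconst : ∀ l, st ≤ l → l < en → v l = v st)
    (f : S → Fin (v st) → MvPolynomial σ K)
    (hf : ∀ s, ∀ j : Fin (v st), f s j ∈ van x (fib p E s)
      (restrictTotalDegree σ K (b ^ kap (st + 1) v (j : ℕ))))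
    (hind : ∀ e ∈ E, LinearIndependent K
      (fun j => Vale.Agent.P054.T2.H930.grad (x e) (f (p e) j)))
    {A' C' : ℕ} (hbase : ∀ a, LO x p b β E v st a (A' * a + C')) :
    ∀ i, st ≤ i → ∀ a, stM L A' * a + stD L M A' C' + i ≤ en → GOOD x p b β E f i a := by
  have hbN := bmin_ge (Fintype.card σ)
  have hb1 : 1 ≤ b := by omega
  have hβ1 : 1 ≤ β := by omega
  intro i
  induction i using Nat.strong_induction_on with
  | _ i ih =>
    intro hi a ha
    set s := 3 * stM L A' with hs
    set s' := A' * (a + 3) + C' + 3 with hs'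
    set Λ := A' * (a + 3) + C' + 1 with hΛ
    have hM1 : 1 ≤ stM L A' := by unfold stM; omega
    have hkey : s' + (L * (s + s') + a + 2 + M) = stM L A' * a + stD L M A' C' := by
      unfold stD
      rw [hs', hs]
      unfold stM
      ring
    -- the lower bound at `i₁`
    obtain ⟨i₁, h1, h2, h3, h4⟩ : ∃ i₁, st ≤ i₁ ∧ i₁ ≤ i ∧ i - i₁ ≤ s ∧
        LO x p b β E v i₁ (a + 2) Λ := by
      rcases Nat.lt_or_ge (st + s) i with hlt | hge
      · refine ⟨i - s, by omega, by omega, by omega, ?_⟩
        have hG := ih (i - s) (by omega) (by omega) (a + 3) (by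
          have e1 : stM L A' * (a + 3) = stM L A' * a + s := by rw [hs]; ring
          omega)
        exact LO.of_good hβ hb h hst f hf hind (by omega)
          (fun l hl hl' => hconst l hl (by omega)) (hbase (a + 3)) hG
      · refine ⟨st, le_rfl, hi, by omega, ?_⟩
        refine (hbase (a + 2)).mono hb1 hβ1 le_rfl ?_
        have : A' * (a + 2) ≤ A' * (a + 3) := Nat.mul_le_mul_left _ (by omega)
        omega
    set i₂ := i + s' with hi₂
    have hLs : L * (i₂ - i₁) ≤ L * (s + s') := Nat.mul_le_mul_left _ (by omega)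
    have hi₂en : i₂ < en := by omega
    have h5 : LO x p b β E v i₂ (a + 1) (Λ + 1) := by
      refine LO.jump hbβ hβ hb h (show i₁ < i₂ by omega) (by omega) ?_ h4 ?_
      · rw [hconst i₂ (by omega) hi₂en, hconst i₁ h1 (by omega)]
      · have h6 := rem_ge (v := v) (i := i₂) hen (fun l hl hl' => by
          rw [hconst l (by omega) hl', hconst i₂ (by omega) hi₂en])
        omega
    exact GOOD.of_lo hβ hb h hE hst f hf hind (by omega) (by omega)
      (fun l hl hl' => hconst l hl (by omega)) h5 (by omega)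

/-- **(LO) in a stage** -/
theorem stage_lo {L M K₀ : ℕ} (hbβ : b = β ^ L) (hβ : 2 ≤ β) (hb : bmin (Fintype.card σ) ≤ b)
    (h : FamU x p b β M K₀ E v) (hE : E.Nonempty) {st en : ℕ} (hst : st ≤ K₀)
    (hen : en ≤ K₀ + 1) (hconst : ∀ l, st ≤ l → l < en → v l = v st)
    {A' C' : ℕ} (hbase : ∀ a, LO x p b β E v st a (A' * a + C')) (i : ℕ) (hi : st ≤ i)
    (hien : i < en) (a : ℕ) :
    LO x p b β E v i a ((A' + Fintype.card σ * stM L A') * a +
      (A' + C' + 1 + Fintype.card σ * (stM L A' + stD L M A' C'))) := by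
  have hbN := bmin_ge (Fintype.card σ)
  have hb1 : 1 ≤ b := by omega
  have hβ1 : 1 ≤ β := by omega
  obtain ⟨f, hf, hind⟩ := h.sys hst
  set g := stM L A' * (a + 1) + stD L M A' C' with hg
  have hA : A' * (a + 1) = A' * a + A' := by ring
  have hNg : Fintype.card σ * g = Fintype.card σ * stM L A' * a +
      Fintype.card σ * (stM L A' + stD L M A' C') := by rw [hg]; ring
  have hdist : (A' + Fintype.card σ * stM L A') * a = A' * a + Fintype.card σ * stM L A' * a := by
    ring
  rcases Nat.lt_or_ge i (st + g) with hlt | hge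
  · refine ((hbase a).up hb1 hi).mono hb1 hβ1 le_rfl ?_
    have h1 : Fintype.card σ * (i - st) ≤ Fintype.card σ * g := Nat.mul_le_mul_left _ (by omega)
    omega
  · have hG := stage_good hbβ hβ hb h hE hst hen hconst f hf hind hbase (i - g) (by omega) (a + 1)
      (by omega)
    have h1 := LO.of_good hβ hb h hst f hf hind (show st ≤ i - g by omega)
      (fun l hl hl' => hconst l hl (by omega)) (hbase (a + 1)) hG
    refine (h1.up hb1 (Nat.sub_le i g)).mono hb1 hβ1 le_rfl ?_
    have h2 : i - (i - g) = g := by omega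
    rw [h2]
    omega

/-- **lossless (LO)** for the levels with values `< w` -/
theorem lo_lt {L M K₀ : ℕ} (hbβ : b = β ^ L) (hβ : 2 ≤ β) (hb : bmin (Fintype.card σ) ≤ b)
    (h : FamU x p b β M K₀ E v) (hE : E.Nonempty) (w : ℕ) :
    ∀ i ≤ K₀, v i < w → ∀ a, LO x p b β E v i a
      (stA (Fintype.card σ) L w * a + stC (Fintype.card σ) L M w) := by
  classical
  have hbN := bmin_ge (Fintype.card σ)
  have hb1 : 1 ≤ b := by omega
  have hβ1 : 1 ≤ β := by omega
  induction w with
  | zero => intro i _ h0; omega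
  | succ w ih =>
    intro i hi hvi a
    rcases Nat.lt_or_ge (v i) w with hlt | hge
    · refine (ih i hi hlt a).mono hb1 hβ1 le_rfl ?_
      have h1 := Nat.mul_le_mul_right a (stA_mono (Fintype.card σ) L w)
      have h2 := stC_mono (Fintype.card σ) L M w
      omega
    have hviw : v i = w := by omega
    -- the start of the stage
    have hex : ∃ l, l ≤ i ∧ v l = w := ⟨i, le_rfl, hviw⟩
    obtain ⟨st, hsti, hvst, hmin⟩ : ∃ st ≤ i, v st = w ∧ ∀ l < st, ¬ (l ≤ i ∧ v l = w) :=
      ⟨Nat.find hex, (Nat.find_spec hex).1, (Nat.find_spec hex).2,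
        fun l hl => Nat.find_min hex hl⟩
    -- the end of the stage
    obtain ⟨g, hvg, hgi, hgK⟩ : ∃ g, v g = w ∧ i ≤ g ∧ g ≤ K₀ :=
      ⟨Nat.findGreatest (fun l => v l = w) K₀,
        Nat.findGreatest_spec (P := fun l => v l = w) hi hviw,
        Nat.le_findGreatest hi hviw, Nat.findGreatest_le _⟩
    obtain ⟨en, hen⟩ : ∃ en, en = g + 1 := ⟨_, rfl⟩
    have hconst : ∀ l, st ≤ l → l < en → v l = v st := by
      intro l hl hl'
      have h1 := h.mono st l hl (by omega)
      have h2 := h.mono l g (by omega) hgK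
      omega
    have hbase : ∀ a, LO x p b β E v st a (stA (Fintype.card σ) L w * a +
        (stC (Fintype.card σ) L M w + Fintype.card σ)) := by
      intro a
      rcases Nat.eq_zero_or_pos st with h0 | hpos
      · rw [h0]
        exact (LO.zero a).mono hb1 hβ1 le_rfl (Nat.zero_le _)
      · have h1 : v (st - 1) ≠ w := fun hcon => hmin (st - 1) (by omega) ⟨by omega, hcon⟩
        have h2 := h.mono (st - 1) st (by omega) (by omega)
        have h3 := ih (st - 1) (by omega) (by omega) a
        refine (h3.up hb1 (Nat.sub_le st 1)).mono hb1 hβ1 le_rfl ?_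
        have h4 : st - (st - 1) = 1 := by omega
        rw [h4]
        omega
    have h1 := stage_lo hbβ hβ hb h hE (hsti.trans hi) (by omega) hconst hbase i hsti
      (by omega) a
    exact h1

/-- the slope of the lossless loss -/
def loA (N L : ℕ) : ℕ := stA N L (N + 1)

/-- the constant of the lossless loss -/
def loC (N L M : ℕ) : ℕ := stC N L M (N + 1)

/-- **LOSSLESS (LO)**: no dependence on the number `K₀` of levels -/
theorem lo_all {L M K₀ : ℕ} (hbβ : b = β ^ L) (hβ : 2 ≤ β) (hb : bmin (Fintype.card σ) ≤ b)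
    (h : FamU x p b β M K₀ E v) (hE : E.Nonempty) (i : ℕ) (hi : i ≤ K₀) (a : ℕ) :
    LO x p b β E v i a (loA (Fintype.card σ) L * a + loC (Fintype.card σ) L M) :=
  lo_lt hbβ hβ hb h hE (Fintype.card σ + 1) i hi (by have := h.le_card hE hi; omega) a

/-- **LOSSLESS [GOOD]** on an interval `[st, en)` of constant values, for any system at `st`:
only the distance to the end of the interval matters -/
theorem good_all {L M K₀ : ℕ} (hbβ : b = β ^ L) (hβ : 2 ≤ β) (hb : bmin (Fintype.card σ) ≤ b)
    (h : FamU x p b β M K₀ E v) (hE : E.Nonempty) {st en : ℕ} (hst : st ≤ K₀)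
    (hen : en ≤ K₀ + 1) (hconst : ∀ l, st ≤ l → l < en → v l = v st)
    (f : S → Fin (v st) → MvPolynomial σ K)
    (hf : ∀ s, ∀ j : Fin (v st), f s j ∈ van x (fib p E s)
      (restrictTotalDegree σ K (b ^ kap (st + 1) v (j : ℕ))))
    (hind : ∀ e ∈ E, LinearIndependent K
      (fun j => Vale.Agent.P054.T2.H930.grad (x e) (f (p e) j)))
    (i : ℕ) (hi : st ≤ i) (a : ℕ)
    (ha : stM L (loA (Fintype.card σ) L) * a +
      stD L M (loA (Fintype.card σ) L) (loC (Fintype.card σ) L M) + i ≤ en) :
    GOOD x p b β E f i a :=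
  stage_good hbβ hβ hb h hE hst hen hconst f hf hind (fun a => lo_all hbβ hβ hb h hE st hst a)
    i hi a ha

end

end Vale.Agent.P054.T3.H461
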