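import Vale.Agent.P054.T3.H461.SA3
import Vale.Agent.P054.T3.H517.VSets
import Vale.Agent.P054.T3.H807.Gain

set_option autoImplicit false
set_option linter.unusedSectionVars false
set_option linter.unusedVariables false

/-!
# P054 / T3: section A with the windows: `exists_core`

From a bipartite set of edges `E₀` with `|Sg₁| |Sg₂| ≤ Λ₀ τ |E₀|`: a subset `E₁`, the three lossless
families, a tight stable window `k₀` and the gains of the three terms of the count.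
-/

namespace Vale.Agent.P054.T3.H461

open Finset MvPolynomial Module
open Vale.Agent.P054.T2 Vale.Agent.P054.T2.SecC
open Vale.Agent.P054.T2.H307 (Ed xF xL)
open Vale.Agent.P054.T2.H686 (Qf Crd dists Ez Gm E Ez_ne Ez_Qf)
open Vale.Agent.P054.T2.H455 (Sep)
open Vale.Agent.P054.T3.H517 (VBd MV lenV aV CVV exists_vsetsT)
open Vale.Agent.P054.T3.H807 (pdeg pdeg_gain pdeg_nogain)

/-- the gain of one side: `pdeg` = product of the degrees of the leaf system at the level `k₀`,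
`S` = number of vertices; `g` = the gain, `Θ` = the loss -/
def SG (b Θ g τ t p n k₀ S : ℕ) (v : ℕ → ℕ) : Prop :=
  pdeg b k₀ v ≤ Θ * τ ^ v k₀ ∧
    (v k₀ = 0 ∨ pdeg b k₀ v * g ≤ Θ * τ ^ v k₀ ∨ S * g ≤ Θ * (τ * t ^ n + τ * p))

theorem SG.mono {b Θ g τ t p n k₀ S Θ' S' : ℕ} {v : ℕ → ℕ} (h : SG b Θ g τ t p n k₀ S v)
    (hΘ : Θ ≤ Θ') (hS : S' ≤ S) : SG b Θ' g τ t p n k₀ S' v := by
  obtain ⟨h1, h2⟩ := h
  refine ⟨h1.trans (Nat.mul_le_mul_right _ hΘ), ?_⟩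
  rcases h2 with h2 | h2 | h2
  · exact Or.inl h2
  · exact Or.inr (Or.inl (h2.trans (Nat.mul_le_mul_right _ hΘ)))
  · exact Or.inr (Or.inr ((Nat.mul_le_mul_right _ hS).trans (h2.trans (Nat.mul_le_mul_right _ hΘ))))

/-- the threshold for `h / 6` -/
def HC (n L len : ℕ) : ℕ :=
  CA4 n L ((4 * n + 2) * len) + (2 * n + 2) * (lenV n L 0 + lenV n L (MV n)) + 1

/-- the slope of the loss -/
def CC0 (n : ℕ) : ℕ := 8 * (4 * n + 1) * (2 * n + 1) + 6 * (4 * n + 1)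

/-- the constant of the loss -/
def CC1 (n L len : ℕ) : ℕ :=
  2 * (4 * n + 1) * (CA4 n L ((4 * n + 2) * len) + 1) + 2 * MV n +
    L * CA4 n L ((4 * n + 2) * len) * (2 * n + 1) + L * HC n L len + 1 + n +
    L * (aV n L 0 + aV n L (MV n))

variable {n : ℕ}

/-- the exponents -/
theorem exp_core {L len h v : ℕ} (hv : v ≤ 2 * n + 1) :
    L * (xA n L ((4 * n + 2) * len) h * v) ≤
      8 * (4 * n + 1) * (2 * n + 1) * h + L * CA4 n L ((4 * n + 2) * len) * (2 * n + 1) := by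
  have h1 := L_xA_le n L ((4 * n + 2) * len) h
  calc L * (xA n L ((4 * n + 2) * len) h * v)
      = (L * xA n L ((4 * n + 2) * len) h) * v := by ring
    _ ≤ (8 * (4 * n + 1) * h + L * CA4 n L ((4 * n + 2) * len)) * (2 * n + 1) :=
        Nat.mul_le_mul h1 hv
    _ = _ := by ring

/-- **SECTION A WITH WINDOWS** -/
theorem exists_core (n : ℕ) (hn : 1 ≤ n) {L : ℕ} (hL : 48 * (4 * n + 1) ≤ L) (len : ℕ)
    (hlen : 1 ≤ len) (Λ₀ Λ₁ : ℕ) (hΛ₁ : 1 ≤ Λ₁) :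
    ∃ β₀ : ℕ, ∀ β, β₀ ≤ β → ∀ τ ell t : ℕ, (β ^ L) ^ ell ≤ τ → τ ≤ (β ^ L) ^ (ell + 1) →
      τ ≤ Λ₁ * t → 1 ≤ t → ∀ (P : Finset (E n)) (B : E n ≃ₗᵢ[ℝ] E n) (k : ℕ), Gm P B →
      ∀ (Sg₁ Sg₂ : Finset (ZZ n)) (E₀ : Finset (Ed n ℝ)), E₀.Nonempty → E₀ ⊆ Ez P B k →
      Sep (fun s : ZZ n => pt s) (4 * t) Sg₁ → Sep (fun s : ZZ n => pt s) (4 * t) Sg₂ →
      (∀ e ∈ E₀, e.1 ∈ Sg₁) → (∀ e ∈ E₀, e.2 ∈ Sg₂) →
      Sg₁.card * Sg₂.card ≤ Λ₀ * τ * E₀.card →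
      ∃ h ≤ ell, ∃ E₁ ⊆ E₀, E₁.Nonempty ∧
        E₀.card ≤ β ^ (CC0 n * h + CC1 n L len) * E₁.card ∧
        ∃ (K₁ : ℕ) (vF v1 v2 : ℕ → ℕ),
        FamU (xF (n := n) (K := ℝ)) (fun _ => ()) (β ^ L) β (2 * MV n) K₁ E₁ vF ∧
        FamU (xL (n := n) (K := ℝ)) Prod.fst (β ^ L) β (2 * MV n) K₁ E₁ v1 ∧
        FamU (xL (n := n) (K := ℝ)) Prod.snd (β ^ L) β (2 * MV n) K₁ E₁ v2 ∧
        ∃ k₀ : ℕ, k₀ + len ≤ K₁ ∧
        (∀ l, k₀ ≤ l → l < k₀ + len → vF l = vF k₀ ∧ v1 l = v1 k₀ ∧ v2 l = v2 k₀) ∧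
        (2 * n + 1) - vF k₀ = (n - v1 k₀) + (n - v2 k₀) ∧
        vF k₀ ≤ 2 * n + 1 ∧ v1 k₀ ≤ n ∧ v2 k₀ ≤ n ∧
        (β ^ L) ^ k₀ ≤ β ^ (CC0 n * h + CC1 n L len) * τ ∧
        (1 ≤ vF k₀ → pdeg (β ^ L) k₀ vF * (β ^ L) ^ (h / 6) ≤
          β ^ (CC0 n * h + CC1 n L len) * τ ^ vF k₀) ∧
        SG (β ^ L) (β ^ (CC0 n * h + CC1 n L len)) ((β ^ L) ^ (h / 6)) τ t P.card n k₀
          (E₁.image Prod.fst).card v1 ∧
        SG (β ^ L) (β ^ (CC0 n * h + CC1 n L len)) ((β ^ L) ^ (h / 6)) τ t P.card n k₀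
          (E₁.image Prod.snd).card v2 := by
  classical
  obtain ⟨β₁, hvs⟩ := exists_vsetsT n L 0 (by omega)
  refine ⟨max β₁ (βA n Λ₀ + CVV n + Λ₁ + 2), fun β hβ => ?_⟩
  have hβ₁ : β₁ ≤ β := (le_max_left _ _).trans hβ
  have hβ' : βA n Λ₀ + CVV n + Λ₁ + 2 ≤ β := (le_max_right _ _).trans hβ
  have hβA : βA n Λ₀ ≤ β := by omega
  have hβ2 : 2 ≤ β := by omega
  have hβ1 : 1 ≤ β := by omega
  have hL0 : 0 < L := by omega
  have hb1 : 1 ≤ β ^ L := Nat.one_le_pow _ _ hβ1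
  intro τ ell t hell hell' hτ ht1 P B k hB Sg₁ Sg₂ E₀ hE₀ hE₀z hs1 hs2 hS1 hS2 hΛ
  set R := (4 * n + 2) * len with hR
  obtain ⟨h, hh, EA, hEA, vF, v1, v2, hEAn, hEAc, hF, h1, h2, hlev, hfirst⟩ :=
    sectionA_bi (R := R) (by omega : 8 * (4 * n + 1) ≤ L) hβA hell' Sg₁ Sg₂ E₀ hE₀ hS1 hS2
      (fun e he => ⟨Ez_ne hB hn (hE₀z he), Ez_Qf (hE₀z he)⟩) hΛ
  set x := xA n L R h with hx
  set K₁ := ell + x with hK₁
  -- the tight window
  obtain ⟨k₀, hk₀, hconst, htight⟩ := hlev.tight hlen (le_refl _)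
  have hk₀x : k₀ ≤ ell + x := by omega
  have hk₀K : k₀ ≤ K₁ := hk₀x
  set Θ := β ^ (CC0 n * h + CC1 n L len) with hΘ
  have hxv : ∀ v : ℕ, v ≤ 2 * n + 1 → (β ^ L) ^ (x * v) ≤
      β ^ (8 * (4 * n + 1) * (2 * n + 1) * h + L * CA4 n L R * (2 * n + 1)) := fun v hv => by
    rw [← pow_mul]
    exact Nat.pow_le_pow_right hβ1 (exp_core hv)
  have hΘ1 : ∀ v : ℕ, v ≤ 2 * n + 1 → (β ^ L) ^ (x * v) ≤ Θ := fun v hv => by
    refine (hxv v hv).trans (Nat.pow_le_pow_right hβ1 ?_)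
    unfold CC0 CC1
    rw [← hR]
    have e1 : (8 * (4 * n + 1) * (2 * n + 1) + 6 * (4 * n + 1)) * h =
      8 * (4 * n + 1) * (2 * n + 1) * h + 6 * (4 * n + 1) * h := by ring
    rw [e1]
    omega
  have hW : (β ^ L) ^ k₀ ≤ Θ * τ := by
    calc (β ^ L) ^ k₀ ≤ (β ^ L) ^ (ell + x) := Nat.pow_le_pow_right hb1 hk₀x
      _ = (β ^ L) ^ (x * 1) * (β ^ L) ^ ell := by rw [mul_one, pow_add, mul_comm]
      _ ≤ Θ * τ := Nat.mul_le_mul (hΘ1 1 (by omega)) hell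
  have hmonoF : ∀ k l : ℕ, k ≤ l → l < k₀ + 1 → vF k ≤ vF l := fun k l hkl hl =>
    hF.mono k l hkl (by omega)
  have hmono1 : ∀ k l : ℕ, k ≤ l → l < k₀ + 1 → v1 k ≤ v1 l := fun k l hkl hl =>
    h1.mono k l hkl (by omega)
  have hmono2 : ∀ k l : ℕ, k ≤ l → l < k₀ + 1 → v2 k ≤ v2 l := fun k l hkl hl =>
    h2.mono k l hkl (by omega)
  have hvF : vF k₀ ≤ 2 * n + 1 := hlev.leF k₀ hk₀K
  have hv1 : v1 k₀ ≤ n := hlev.le1 k₀ hk₀K
  have hv2 : v2 k₀ ≤ n := hlev.le2 k₀ hk₀K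
  have hng : ∀ v : ℕ → ℕ, (∀ k l : ℕ, k ≤ l → l < k₀ + 1 → v k ≤ v l) → v k₀ ≤ 2 * n + 1 →
      pdeg (β ^ L) k₀ v ≤ Θ * τ ^ v k₀ := fun v hm hv =>
    (pdeg_nogain hb1 hm hell hk₀x).trans (Nat.mul_le_mul_right _ (hΘ1 _ hv))
  rcases Nat.lt_or_ge (h / 6) (HC n L len) with hsmall | hbig
  · -- small `h`: the gain is a constant
    have hgs : ∀ v : ℕ → ℕ, (∀ k l : ℕ, k ≤ l → l < k₀ + 1 → v k ≤ v l) → v k₀ ≤ 2 * n + 1 →
        pdeg (β ^ L) k₀ v * (β ^ L) ^ (h / 6) ≤ Θ * τ ^ v k₀ := by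
      intro v hm hv
      calc pdeg (β ^ L) k₀ v * (β ^ L) ^ (h / 6)
          ≤ ((β ^ L) ^ (x * v k₀) * τ ^ v k₀) * (β ^ L) ^ HC n L len :=
            Nat.mul_le_mul (pdeg_nogain hb1 hm hell hk₀x)
              (Nat.pow_le_pow_right hb1 hsmall.le)
        _ = ((β ^ L) ^ (x * v k₀) * (β ^ L) ^ HC n L len) * τ ^ v k₀ := by ring
        _ ≤ Θ * τ ^ v k₀ := by
            refine Nat.mul_le_mul_right _ ?_
            refine (Nat.mul_le_mul_right _ (hxv _ hv)).trans ?_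
            rw [← pow_mul β L (HC n L len), ← pow_add]
            refine Nat.pow_le_pow_right hβ1 ?_
            unfold CC0 CC1
            rw [← hR]
            have e1 : (8 * (4 * n + 1) * (2 * n + 1) + 6 * (4 * n + 1)) * h =
              8 * (4 * n + 1) * (2 * n + 1) * h + 6 * (4 * n + 1) * h := by ring
            rw [e1]
            omega
    have hcc : EA.card ≤ β ^ (2 * MV n) * EA.card :=
      Nat.le_mul_of_pos_left _ (Nat.pow_pos hβ1)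
    have hF' := H533.FamU.subset hF (Finset.Subset.refl _) hcc
    have h1' := H533.FamU.subset h1 (Finset.Subset.refl _) hcc
    have h2' := H533.FamU.subset h2 (Finset.Subset.refl _) hcc
    rw [Nat.zero_add] at hF' h1' h2'
    refine ⟨h, hh, EA, hEA, hEAn, ?_, K₁, vF, v1, v2, hF', h1', h2', k₀, by omega,
      fun l hl hl' => hconst l hl hl', htight, hvF, hv1, hv2, hW, fun _ => hgs vF hmonoF hvF,
      ⟨hng v1 hmono1 (by omega), Or.inr (Or.inl (hgs v1 hmono1 (by omega)))⟩,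
      ⟨hng v2 hmono2 (by omega), Or.inr (Or.inl (hgs v2 hmono2 (by omega)))⟩⟩
    refine hEAc.trans (Nat.mul_le_mul_right _ (Nat.pow_le_pow_right hβ1 ?_))
    unfold CC0 CC1
    rw [← hR]
    have e1 : (8 * (4 * n + 1) * (2 * n + 1) + 6 * (4 * n + 1)) * h =
      8 * (4 * n + 1) * (2 * n + 1) * h + 6 * (4 * n + 1) * h := by ring
    rw [e1]
    omega
  · -- large `h`
    have hHC : CA4 n L R + (2 * n + 2) * (lenV n L 0 + lenV n L (MV n)) + 1 ≤ h / 6 := hbig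
    have hsplit : (2 * n + 2) * (lenV n L 0 + lenV n L (MV n)) =
        (2 * n + 2) * lenV n L 0 + (2 * n + 2) * lenV n L (MV n) := by ring
    have hxle : x ≤ h / 6 + CA4 n L R := xA_le hL
    have h63 : h / 6 + h / 6 ≤ h / 3 := by omega
    have h3h : h / 3 ≤ h := Nat.div_le_self _ _
    have hf1 : 1 ≤ vF (ell - h / 3) := hlev.dropF hh (Nat.le_add_right _ _) (hfirst (by omega))
      (by omega) (by omega)
    obtain ⟨E₁, hE₁, hE₁c, hF', h1', h2', hV⟩ := hvs β hβ₁ K₁ EA vF v1 v2 hEAn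
      (fun e he => ⟨Ez_ne hB hn (hE₀z (hEA he)), Ez_Qf (hE₀z (hEA he))⟩) hF h1 h2
      (ell - h / 3) (ell - h / 6) hf1 (by omega) (by rw [Nat.zero_add]; omega) (by omega)
    rw [Nat.zero_add] at hF' h1' h2'
    obtain ⟨hV1, hV2⟩ := hV P B t k Sg₁ Sg₂ ht1 hs1 hs2 (fun e he => hS1 e (hEA he))
      (fun e he => hS2 e (hEA he)) hB (hEA.trans hE₀z)
    have hE₁n : E₁.Nonempty := by
      rw [← Finset.card_pos]
      by_contra hcon
      have h0 : E₁.card = 0 := by omega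
      rw [h0, mul_zero] at hE₁c
      have := hEAn.card_pos
      omega
    -- gain of a family which has dropped at a level `f ≤ ell - h / 6`
    have hgp : ∀ (v : ℕ → ℕ) (f : ℕ), (∀ k l : ℕ, k ≤ l → l < k₀ + 1 → v k ≤ v l) →
        v k₀ ≤ 2 * n + 1 → 1 ≤ v f → f + h / 6 ≤ ell → 1 ≤ v k₀ →
        pdeg (β ^ L) k₀ v * (β ^ L) ^ (h / 6) ≤ Θ * τ ^ v k₀ := by
      intro v f hm hv hvf hfe hvk
      have hf' : 1 ≤ v (min f k₀) := by
        rcases Nat.le_total f k₀ with hc | hc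
        · rwa [min_eq_left hc]
        · rwa [min_eq_right hc]
      have hm1 := min_le_left f k₀
      have hm2 := min_le_right f k₀
      exact (pdeg_gain hb1 hm hell hk₀x hm2 hf' (by omega)).trans
        (Nat.mul_le_mul_right _ (hΘ1 _ hv))
    -- gain of Lemma V
    have hgv : ∀ (M s k' : ℕ), (M = 0 ∨ M = MV n) → ell - h / 3 ≤ k' → k' ≤ ell - h / 6 →
        vF k' ≤ n + 1 → VBd n β L M vF P t k' s →
        s * (β ^ L) ^ (h / 6) ≤ Θ * (τ * t ^ n + τ * P.card) := by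
      intro M s k' hM hk1 hk2 hvn hb
      have h3 := hb.gain (ell := ell) (x := x) (g := h / 6) (f := ell - h / 3) (τ := τ) (Θ := Λ₁)
        hb1 (fun k l hkl hl => hF.mono k l hkl (by omega)) hell (by omega) hk1 hf1 (by omega) hvn
        hΛ₁ hτ
      refine h3.trans ?_
      have haV : aV n L M ≤ aV n L 0 + aV n L (MV n) := by
        rcases hM with rfl | rfl <;> omega
      have e0 : 1 ≤ (β ^ L) ^ (x * (n + 1)) * Λ₁ ^ n :=
        Nat.mul_pos (Nat.pow_pos (Nat.pow_pos hβ1)) (Nat.pow_pos hΛ₁)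
      calc CVV n * (β ^ L) ^ aV n L M *
            ((β ^ L) ^ (x * (n + 1)) * Λ₁ ^ n * (τ * t ^ n) + τ * P.card)
          ≤ CVV n * (β ^ L) ^ aV n L M *
            ((β ^ L) ^ (x * (n + 1)) * Λ₁ ^ n * (τ * t ^ n) +
              (β ^ L) ^ (x * (n + 1)) * Λ₁ ^ n * (τ * P.card)) :=
            Nat.mul_le_mul_left _ (Nat.add_le_add_left (Nat.le_mul_of_pos_left _ e0) _)
        _ = (CVV n * (β ^ L) ^ aV n L M * ((β ^ L) ^ (x * (n + 1)) * Λ₁ ^ n)) *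
            (τ * t ^ n + τ * P.card) := by ring
        _ ≤ Θ * (τ * t ^ n + τ * P.card) := by
            refine Nat.mul_le_mul_right _ ?_
            calc CVV n * (β ^ L) ^ aV n L M * ((β ^ L) ^ (x * (n + 1)) * Λ₁ ^ n)
                ≤ β ^ 1 * β ^ (L * (aV n L 0 + aV n L (MV n))) *
                  (β ^ (8 * (4 * n + 1) * (2 * n + 1) * h + L * CA4 n L R * (2 * n + 1)) *
                    β ^ n) := by
                  refine Nat.mul_le_mul (Nat.mul_le_mul (by rw [pow_one]; omega) ?_)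
                    (Nat.mul_le_mul (hxv (n + 1) (by omega)) (Nat.pow_le_pow_left (by omega) _))
                  rw [← pow_mul]
                  exact Nat.pow_le_pow_right hβ1 (Nat.mul_le_mul_left _ haV)
              _ = β ^ (1 + L * (aV n L 0 + aV n L (MV n)) +
                  (8 * (4 * n + 1) * (2 * n + 1) * h + L * CA4 n L R * (2 * n + 1) + n)) := by
                  rw [← pow_add, ← pow_add, ← pow_add]
              _ ≤ Θ := by
                  refine Nat.pow_le_pow_right hβ1 ?_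
                  unfold CC0 CC1
                  rw [← hR]
                  have e1 : (8 * (4 * n + 1) * (2 * n + 1) + 6 * (4 * n + 1)) * h =
                    8 * (4 * n + 1) * (2 * n + 1) * h + 6 * (4 * n + 1) * h := by ring
                  rw [e1]
                  omega
    have hh6 : h / 6 ≤ ell := (Nat.div_le_self _ _).trans hh
    have hsd : ∀ (v : ℕ → ℕ) (M s : ℕ), (∀ k l : ℕ, k ≤ l → l < k₀ + 1 → v k ≤ v l) →
        v k₀ ≤ n → (M = 0 ∨ M = MV n) →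
        (1 ≤ v (ell - h / 6) ∨ ∃ k', ell - h / 3 ≤ k' ∧ k' ≤ ell - h / 6 ∧ vF k' ≤ n + 1 ∧
          VBd n β L M vF P t k' s) →
        SG (β ^ L) Θ ((β ^ L) ^ (h / 6)) τ t P.card n k₀ s v := by
      intro v M s hm hv hM hor
      refine ⟨hng v hm (by omega), ?_⟩
      rcases Nat.eq_zero_or_pos (v k₀) with h0 | hpos
      · exact Or.inl h0
      rcases hor with hor | ⟨k', hk1, hk2, hvn, hb⟩
      · exact Or.inr (Or.inl (hgp v (ell - h / 6) hm (by omega) hor (by omega) hpos))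
      · exact Or.inr (Or.inr (hgv M s k' hM hk1 hk2 hvn hb))
    refine ⟨h, hh, E₁, hE₁.trans hEA, hE₁n, ?_, K₁, vF, v1, v2, hF', h1', h2', k₀, by omega,
      fun l hl hl' => hconst l hl hl', htight, hvF, hv1, hv2, hW,
      fun hpos => hgp vF (ell - h / 3) hmonoF hvF hf1 (by omega) hpos,
      hsd v1 0 _ hmono1 hv1 (Or.inl rfl) hV1,
      hsd v2 (MV n) _ hmono2 hv2 (Or.inr rfl) (by rwa [Nat.zero_add] at hV2)⟩
    calc E₀.card ≤ β ^ (6 * (4 * n + 1) * h + 2 * (4 * n + 1) * (CA4 n L R + 1)) * EA.card := hEAc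
      _ ≤ β ^ (6 * (4 * n + 1) * h + 2 * (4 * n + 1) * (CA4 n L R + 1)) *
          (β ^ (2 * MV n) * E₁.card) := Nat.mul_le_mul_left _ hE₁c
      _ = β ^ (6 * (4 * n + 1) * h + 2 * (4 * n + 1) * (CA4 n L R + 1) + 2 * MV n) * E₁.card := by
          rw [pow_add]; ring
      _ ≤ Θ * E₁.card := by
          refine Nat.mul_le_mul_right _ (Nat.pow_le_pow_right hβ1 ?_)
          unfold CC0 CC1
          rw [← hR]
          have e1 : (8 * (4 * n + 1) * (2 * n + 1) + 6 * (4 * n + 1)) * h =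
            8 * (4 * n + 1) * (2 * n + 1) * h + 6 * (4 * n + 1) * h := by ring
          rw [e1]
          omega

end Vale.Agent.P054.T3.H461
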