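import Vale.Agent.P054.T3.H461.MC0
import Vale.Agent.P054.T3.H533.CountT
import Vale.Agent.P054.T3.H533.Deg0K

set_option autoImplicit false
set_option linter.unusedSectionVars false
set_option linter.unusedVariables false

/-!
# P054 / T3: `main3`, all sections together for `n ≥ 3`, in natural numbers
-/

namespace Vale.Agent.P054.T3.H461

open Finset MvPolynomial Module
open Vale.Agent.P054.T2 Vale.Agent.P054.T2.SecC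
open Vale.Agent.P054.T2.H163
open Vale.Agent.P054.T2.H307 (Ed xF xL NN)
open Vale.Agent.P054.T2.H580 (kap)
open Vale.Agent.P054.T2.H686 (Qf Crd dists Ez Gm E Ez_ne Ez_Qf)
open Vale.Agent.P054.T2.H455 (Sep)
open Vale.Agent.P054.T2.H269 (Cs)
open Vale.Agent.P054.T3.H517 (VBd MV lenV aV CVV exists_vsetsT)
open Vale.Agent.P054.T3.H807 (pdeg pdeg_gain pdeg_nogain leafB)
open Vale.Agent.P054.T3.H182 (F5 BData BOut CB qB)
open Vale.Agent.P054.T3.H533 (MuK card_deg0K_famU card_deg0K_famU' aBC lenBC lossBC exists_BOut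
  termF prod_eq_pdeg)
open Vale.Agent.P054.T3.H533.B (KB ML mS lenS)
open Vale.Agent.P054.T3.H637 (PSEdge FlatQ)
open Vale.Agent.P054.T3.H854 (IsoBL)

/-- the contribution `X` of one side; first alternative: `σ = n` -/
def SideN (n Θ g t τ N p Gf : ℕ) (G : ℕ → ℕ) (X : ℕ) : Prop :=
  X ≤ Θ * (N * Gf) ∨
  ∃ σ : ℕ, σ < n ∧ ∃ S D : ℕ, X ≤ Θ * (S * D * (t ^ σ + G σ)) ∧ S ≤ N ∧
    D ≤ Θ * τ ^ (n - σ) ∧ (D * g ≤ Θ * τ ^ (n - σ) ∨ S * g ≤ Θ * (τ * t ^ n + τ * p))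

/-- the contribution of the pairs of classes -/
def ThirdN (n Θ g t τ X : ℕ) : Prop :=
  X = 0 ∨ ∃ m : ℕ, 3 ≤ m ∧ m ≤ 2 * n + 1 ∧ X * g ≤ Θ * (τ ^ m * t ^ (2 * n + 1 - m))

theorem sideN_zero (n Θ g t τ N p Gf : ℕ) (G : ℕ → ℕ) : SideN n Θ g t τ N p Gf G 0 :=
  Or.inl (Nat.zero_le _)

open Classical in
/-- **the interface of the planar block**: number of `PSEdge`s -/
def PSHyp (n : ℕ) (P : Finset (E n)) (B : E n ≃ₗᵢ[ℝ] E n) (E₀ : Finset (Ed n ℝ)) (τ ell : ℕ)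
    (Θ M Ψ Rb : ℕ → ℕ) : Prop :=
  ∀ h ≤ ell, ∀ E₂ ⊆ E₀, ∀ (W D c₀ : ℕ) (dF d1 d2 : ℕ → ℕ) (O : BOut n W D c₀ 1 1 E₂ P B dF d1 d2),
    1 ≤ W → W ≤ Θ h * τ → D ≤ Θ h → (∀ j, 1 ≤ d1 j) → (∀ j, 1 ≤ d2 j) →
    (∀ j < n - 1, d1 j ≤ W) → (∀ j < n - 1, d2 j ≤ W) → (∀ e ∈ O.A, EdgeB O.S₁ O.S₂ e) →
    (O.A.filter fun e => PSEdge O.S₁ O.S₂ (M h) (M h) e).card ≤
      Ψ h * ((E₂.image Prod.fst).card * ((∏ i : Fin (n - 1), d1 i) * M h)) +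
      Ψ h * ((E₂.image Prod.snd).card * ((∏ i : Fin (n - 1), d2 i) * M h)) + Rb h

/-- the constant of the loss of `main3` -/
def CC2 (n L : ℕ) : ℕ :=
  CC1 n L (lenBC n L (2 * MV n)) + lossBC n + L * aBC n L (2 * MV n) + 2

variable {n : ℕ}

open Classical in
/-- the planar block in the case of general `σ₁`, `σ₂` -/
theorem PSHyp.apply {P : Finset (E n)} {B : E n ≃ₗᵢ[ℝ] E n} {E₀ : Finset (Ed n ℝ)} {τ ell : ℕ}
    {Θ M Ψ Rb : ℕ → ℕ} (hPS : PSHyp n P B E₀ τ ell Θ M Ψ Rb) {h : ℕ} (hh : h ≤ ell)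
    {E₂ : Finset (Ed n ℝ)} (hE : E₂ ⊆ E₀) {W D c₀ σ₁ σ₂ : ℕ} {dF d1 d2 : ℕ → ℕ}
    (O : BOut n W D c₀ σ₁ σ₂ E₂ P B dF d1 d2) (hW1 : 1 ≤ W) (hW : W ≤ Θ h * τ) (hD : D ≤ Θ h)
    (h1 : ∀ j, 1 ≤ d1 j) (h2 : ∀ j, 1 ≤ d2 j) (h3 : ∀ j < n - σ₁, d1 j ≤ W)
    (h4 : ∀ j < n - σ₂, d2 j ≤ W) (hB : ∀ e ∈ O.A, EdgeB O.S₁ O.S₂ e) {G₁ G₂ : ℕ}
    (hG₁ : σ₁ = 1 → G₁ = M h) (hG₂ : σ₂ = 1 → G₂ = M h) :
    (O.A.filter fun e => PSEdge O.S₁ O.S₂ G₁ G₂ e).card ≤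
      (if σ₁ = 1 then Ψ h * ((E₂.image Prod.fst).card * ((∏ i : Fin (n - σ₁), d1 i) * G₁)) else 0) +
      (if σ₂ = 1 then Ψ h * ((E₂.image Prod.snd).card * ((∏ i : Fin (n - σ₂), d2 i) * G₂)) else 0) +
      Rb h := by
  by_cases hs : σ₁ = 1 ∧ σ₂ = 1
  · obtain ⟨rfl, rfl⟩ := hs
    obtain rfl := hG₁ rfl
    obtain rfl := hG₂ rfl
    rw [if_pos rfl, if_pos rfl]
    exact hPS h hh E₂ hE W D c₀ dF d1 d2 O hW1 hW hD h1 h2 h3 h4 hB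
  · have h0 : (O.A.filter fun e => PSEdge O.S₁ O.S₂ G₁ G₂ e) = ∅ := by
      rw [Finset.filter_eq_empty_iff]
      intro e _ hPS
      exact hs ⟨hPS.s₁, hPS.s₂⟩
    rw [h0, Finset.card_empty]
    exact Nat.zero_le _

/-- one side of the count in the case `σ < n` or `σ = n` -/
theorem sideN_of {n Θ Θ' Cb Ψ g t τ N p Gf σ S D G' k₀ b : ℕ} {G : ℕ → ℕ} {v : ℕ → ℕ}
    (hn : 3 ≤ n) (hσ : σ ≤ n) (hv : n - σ = v k₀) (hSG : SG b Θ g τ t p n k₀ S v) (hSN : S ≤ N)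
    (hD : D = pdeg b k₀ v) (hG' : G' = G σ) (hΘ : 2 * Cb * Θ ≤ Θ') (hΘ' : Θ ≤ Θ') (hΘ1 : 1 ≤ Θ)
    (h2 : 2 ≤ Θ') :
    SideN n (Θ' * (Ψ + 1)) g t τ N p Gf G
      (2 * Cb * (S * (D * leafB n σ t G' Gf)) + 2 * (if σ = 1 then Ψ * (S * (D * G')) else 0)) := by
  obtain ⟨hs1, hs2⟩ := hSG
  have hCb : 2 * Cb ≤ Θ' := (Nat.le_mul_of_pos_right _ hΘ1).trans hΘ
  have hΘ2 : Θ ≤ Θ' * (Ψ + 1) := hΘ'.trans (Nat.le_mul_of_pos_right _ (Nat.succ_pos _))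
  rcases Nat.lt_or_ge σ n with hlt | hge
  · right
    have hvpos : v k₀ ≠ 0 := by omega
    refine ⟨σ, hlt, S, D, ?_, hSN, ?_, ?_⟩
    · have hl : leafB n σ t G' Gf = t ^ σ + G' := if_pos hlt
      rw [hl, hG']
      have e1 : (if σ = 1 then Ψ * (S * (D * G σ)) else 0) ≤ Ψ * (S * D * (t ^ σ + G σ)) := by
        split_ifs
        · rw [show S * (D * G σ) = S * D * G σ by ring]
          exact Nat.mul_le_mul_left _ (Nat.mul_le_mul_left _ (Nat.le_add_left _ _))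
        · exact Nat.zero_le _
      calc 2 * Cb * (S * (D * (t ^ σ + G σ))) + 2 * (if σ = 1 then Ψ * (S * (D * G σ)) else 0)
          ≤ Θ' * (S * D * (t ^ σ + G σ)) + Θ' * (Ψ * (S * D * (t ^ σ + G σ))) := by
            refine Nat.add_le_add ?_ (Nat.mul_le_mul h2 e1)
            rw [show S * (D * (t ^ σ + G σ)) = S * D * (t ^ σ + G σ) by ring]
            exact Nat.mul_le_mul_right _ hCb
        _ = _ := by ring
    · rw [hD, hv]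
      exact hs1.trans (Nat.mul_le_mul_right _ hΘ2)
    · rcases hs2 with h0 | h0 | h0
      · exact absurd h0 hvpos
      · left
        rw [hD, hv]
        exact h0.trans (Nat.mul_le_mul_right _ hΘ2)
      · right
        exact h0.trans (Nat.mul_le_mul_right _ hΘ2)
  · left
    have hσn : σ = n := by omega
    have hv0 : v k₀ = 0 := by omega
    have hl : leafB n σ t G' Gf = Gf := if_neg (by omega)
    rw [hl, if_neg (by omega : σ ≠ 1), Nat.mul_zero, Nat.add_zero]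
    rw [hv0, pow_zero, mul_one, ← hD] at hs1
    calc 2 * Cb * (S * (D * Gf)) ≤ 2 * Cb * (N * (Θ * Gf)) := by gcongr
      _ = (2 * Cb * Θ) * (N * Gf) := by ring
      _ ≤ (Θ' * (Ψ + 1)) * (N * Gf) :=
          Nat.mul_le_mul_right _ (hΘ.trans (Nat.le_mul_of_pos_right _ (Nat.succ_pos _)))

/-- the third term -/
theorem thirdN_of {n Θ Θ' Cb g t τ σ₁ σ₂ vF DF : ℕ} (hσ₁ : σ₁ ≤ n) (hσ₂ : σ₂ ≤ n)
    (hvF : vF ≤ 2 * n + 1) (ht : (2 * n + 1) - vF = σ₁ + σ₂)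
    (hg : 1 ≤ vF → DF * g ≤ Θ * τ ^ vF) (hΘ : 2 * Cb * Θ ≤ Θ') :
    ThirdN n Θ' g t τ (2 * Cb * termF n σ₁ σ₂ t DF) := by
  unfold termF
  split_ifs with h
  · right
    refine ⟨vF, by omega, hvF, ?_⟩
    have h1 := hg (by omega)
    have h2 : 2 * n + 1 - vF = σ₁ + σ₂ := ht
    rw [h2]
    calc 2 * Cb * (DF * t ^ (σ₁ + σ₂)) * g = 2 * Cb * (DF * g) * t ^ (σ₁ + σ₂) := by ring
      _ ≤ 2 * Cb * (Θ * τ ^ vF) * t ^ (σ₁ + σ₂) := by gcongr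
      _ = (2 * Cb * Θ) * (τ ^ vF * t ^ (σ₁ + σ₂)) := by ring
      _ ≤ _ := Nat.mul_le_mul_right _ hΘ
  · left
    rw [Nat.mul_zero]

theorem ThirdN.mono {n Θ Θ' g t τ X : ℕ} (h : ThirdN n Θ g t τ X) (hΘ : Θ ≤ Θ') :
    ThirdN n Θ' g t τ X := by
  rcases h with h | ⟨m, h1, h2, h3⟩
  · exact Or.inl h
  · exact Or.inr ⟨m, h1, h2, h3.trans (Nat.mul_le_mul_right _ hΘ)⟩

/-- the degenerate case `σ = 0` -/
theorem sideN_deg0 {n Θ Θ' g t τ N p Gf κ S D k₀ b c : ℕ} {G : ℕ → ℕ} {v : ℕ → ℕ}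
    (hn : 1 ≤ n) (hv : v k₀ = n) (hSG : SG b Θ g τ t p n k₀ S v) (hSN : S ≤ N)
    (hD : D = pdeg b k₀ v) (hκ : κ ≤ G 0) (hc : c ≤ Θ') (hΘ' : Θ ≤ Θ') :
    SideN n Θ' g t τ N p Gf G (S * (κ * (c * D))) := by
  obtain ⟨hs1, hs2⟩ := hSG
  right
  refine ⟨0, hn, S, D, ?_, hSN, ?_, ?_⟩
  · rw [pow_zero]
    calc S * (κ * (c * D)) = c * (S * D * κ) := by ring
      _ ≤ Θ' * (S * D * (1 + G 0)) :=
          Nat.mul_le_mul hc (Nat.mul_le_mul_left _ (hκ.trans (Nat.le_add_left _ _)))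
  · rw [hD, Nat.sub_zero, ← hv]
    exact hs1.trans (Nat.mul_le_mul_right _ hΘ')
  · rcases hs2 with h0 | h0 | h0
    · omega
    · left
      rw [hD, Nat.sub_zero, ← hv]
      exact h0.trans (Nat.mul_le_mul_right _ hΘ')
    · right
      exact h0.trans (Nat.mul_le_mul_right _ hΘ')

theorem SideN.mono {n Θ Θ' g t τ N p Gf X : ℕ} {G : ℕ → ℕ} (h : SideN n Θ g t τ N p Gf G X)
    (hΘ : Θ ≤ Θ') : SideN n Θ' g t τ N p Gf G X := by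
  rcases h with h | ⟨σ, hσ, S, D, h1, h2, h3, h4⟩
  · exact Or.inl (h.trans (Nat.mul_le_mul_right _ hΘ))
  · refine Or.inr ⟨σ, hσ, S, D, h1.trans (Nat.mul_le_mul_right _ hΘ), h2,
      h3.trans (Nat.mul_le_mul_right _ hΘ), ?_⟩
    rcases h4 with h4 | h4
    · exact Or.inl (h4.trans (Nat.mul_le_mul_right _ hΘ))
    · exact Or.inr (h4.trans (Nat.mul_le_mul_right _ hΘ))

/-- **ALL SECTIONS, `n ≥ 3`**, in natural numbers -/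
theorem main3 (n : ℕ) (hn : 3 ≤ n) {L : ℕ} (hL : 48 * (4 * n + 1) ≤ L) (Λ₀ Λ₁ : ℕ)
    (hΛ₁ : 1 ≤ Λ₁) :
    ∃ β₀ : ℕ, ∀ β, β₀ ≤ β → ∀ τ ell t : ℕ, (β ^ L) ^ ell ≤ τ → τ ≤ (β ^ L) ^ (ell + 1) →
      τ ≤ Λ₁ * t → 1 ≤ t → ∀ (P : Finset (E n)) (B : E n ≃ₗᵢ[ℝ] E n) (k : ℕ), Gm P B →
      ∀ (Sg₁ Sg₂ : Finset (ZZ n)) (E₀ : Finset (Ed n ℝ)), E₀.Nonempty → E₀ ⊆ Ez P B k →
      Sep (fun s : ZZ n => pt s) (4 * t) Sg₁ → Sep (fun s : ZZ n => pt s) (4 * t) Sg₂ →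
      (∀ e ∈ E₀, e.1 ∈ Sg₁) → (∀ e ∈ E₀, e.2 ∈ Sg₂) →
      Sg₁.card * Sg₂.card ≤ Λ₀ * τ * E₀.card →
      ∀ (κ Gf : ℕ) (Gi : ℕ → ℕ) (Gh : ℕ → ℕ → ℕ) (Ψ Rb : ℕ → ℕ), MuK E₀ κ → MuK (swp E₀) κ →
      IsoBL n P Gi → FlatQ n P Gf → P.card ≤ Gf → (∀ h σ, 2 ≤ σ → Gi σ ≤ Gh h σ) →
      (∀ h, κ ≤ Gh h 0) →
      PSHyp n P B E₀ τ ell (fun h => β ^ (CC0 n * h + CC2 n L)) (fun h => Gh h 1) Ψ Rb →
      ∃ h ≤ ell, ∃ E₂ ⊆ E₀, E₂.Nonempty ∧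
        E₀.card ≤ β ^ (CC0 n * h + CC2 n L) * E₂.card ∧
        ∃ X₁ X₂ X₃ : ℕ, E₂.card ≤ X₁ + X₂ + X₃ + 2 * Rb h ∧
        SideN n (β ^ (CC0 n * h + CC2 n L) * (Ψ h + 1)) ((β ^ L) ^ (h / 6)) t τ Sg₁.card P.card Gf
          (Gh h) X₁ ∧
        SideN n (β ^ (CC0 n * h + CC2 n L) * (Ψ h + 1)) ((β ^ L) ^ (h / 6)) t τ Sg₂.card P.card Gf
          (Gh h) X₂ ∧
        ThirdN n (β ^ (CC0 n * h + CC2 n L)) ((β ^ L) ^ (h / 6)) t τ X₃ := by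
  classical
  have hlen1 : 1 ≤ lenBC n L (2 * MV n) := by unfold lenBC lenS; omega
  obtain ⟨β₁, hcore⟩ := exists_core n (by omega) hL (lenBC n L (2 * MV n)) hlen1 Λ₀ Λ₁ hΛ₁
  obtain ⟨β₂, hBO⟩ := exists_BOut n L (2 * MV n) (by omega) (by omega)
  refine ⟨max (max β₁ β₂) (2 + (n + 1) ^ n + Cs n + H819.Cx n + 9 ^ n + 4 * 25 ^ n),
    fun β hβ => ?_⟩
  have hβ₁ : β₁ ≤ β := (le_max_left _ _).trans ((le_max_left _ _).trans hβ)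
  have hβ₂ : β₂ ≤ β := (le_max_right _ _).trans ((le_max_left _ _).trans hβ)
  have hβc : 2 + (n + 1) ^ n + Cs n + H819.Cx n + 9 ^ n + 4 * 25 ^ n ≤ β :=
    (le_max_right _ _).trans hβ
  have hall : ∀ a1 a2 a3 a4 a5 a6 : ℕ, a1 + a2 + a3 + a4 + a5 + a6 ≤ β →
      a1 ≤ β ∧ a2 ≤ β ∧ a3 ≤ β ∧ a4 ≤ β ∧ a5 ≤ β ∧ a6 ≤ β := by
    intros; omega
  obtain ⟨q1, q2, q3, q4, q5, q6⟩ := hall _ _ _ _ _ _ hβc
  clear hβc
  have hβ1 : 1 ≤ β := by omega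
  have hL0 : L ≠ 0 := by omega
  have hbβ : β ≤ β ^ L := Nat.le_self_pow hL0 _
  have hb1 : 1 ≤ β ^ L := Nat.one_le_pow _ _ hβ1
  intro τ ell t hell hell' hτ ht1 P B k hB Sg₁ Sg₂ E₀ hE₀ hE₀z hs1 hs2 hS1 hS2 hΛ κ Gf Gi Gh Ψ Rb
    hK1 hK2 hIso hFl hPG hGi hκ hPS
  obtain ⟨h, hh, E₁, hE₁, hE₁n, hE₁c, K₁, vF, v1, v2, hF, h1, h2, k₀, hk₀, hconst, htight, hvF,
    hv1, hv2, hW, hgF, hg1, hg2⟩ := hcore β hβ₁ τ ell t hell hell' hτ ht1 P B k hB Sg₁ Sg₂ E₀ hE₀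
    hE₀z hs1 hs2 hS1 hS2 hΛ
  set Θ₁ := β ^ (CC0 n * h + CC1 n L (lenBC n L (2 * MV n))) with hΘ₁
  set Θ₂ := β ^ (CC0 n * h + CC2 n L) with hΘ₂
  have hΘ12 : Θ₁ ≤ Θ₂ := Nat.pow_le_pow_right hβ1 (by unfold CC2; omega)
  have hΘ1pos : 1 ≤ Θ₁ := Nat.one_le_pow _ _ hβ1
  have hβΘ : β ≤ Θ₂ := by
    calc β = β ^ 1 := (pow_one _).symm
      _ ≤ Θ₂ := Nat.pow_le_pow_right hβ1 (by unfold CC2; omega)
  have hCbΘ : 2 * (β ^ L) ^ aBC n L (2 * MV n) * Θ₁ ≤ Θ₂ := by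
    calc 2 * (β ^ L) ^ aBC n L (2 * MV n) * Θ₁
        ≤ β ^ 1 * β ^ (L * aBC n L (2 * MV n)) * Θ₁ := by
          refine Nat.mul_le_mul_right _ (Nat.mul_le_mul (by rw [pow_one]; exact q1) ?_)
          rw [← pow_mul]
      _ = β ^ (1 + L * aBC n L (2 * MV n) +
          (CC0 n * h + CC1 n L (lenBC n L (2 * MV n)))) := by rw [hΘ₁, ← pow_add, ← pow_add]
      _ ≤ Θ₂ := Nat.pow_le_pow_right hβ1 (by unfold CC2; omega)
  have hSc1 : (E₁.image Prod.fst).card ≤ Sg₁.card := Finset.card_le_card fun s hs => by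
    obtain ⟨e, he, rfl⟩ := Finset.mem_image.1 hs
    exact hS1 e (hE₁ he)
  have hSc2 : (E₁.image Prod.snd).card ≤ Sg₂.card := Finset.card_le_card fun s hs => by
    obtain ⟨e, he, rfl⟩ := Finset.mem_image.1 hs
    exact hS2 e (hE₁ he)
  have hΨ1 : Θ₂ ≤ Θ₂ * (Ψ h + 1) := Nat.le_mul_of_pos_right _ (Nat.succ_pos _)
  have hz1 : ∀ a r : ℕ, a ≤ a + 0 + 0 + 2 * r := by intros; omega
  have hz2 : ∀ a r : ℕ, a ≤ 0 + a + 0 + 2 * r := by intros; omega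
  by_cases hd1 : v1 k₀ = n
  · -- `σ₁ = 0`
    have hc := card_deg0K_famU (hK1.subset hE₁) (E₁.image Prod.fst)
      (fun e he => Finset.mem_image_of_mem _ he) hb1 h1 (by omega : k₀ ≤ K₁) hd1
    refine ⟨h, hh, E₁, hE₁, hE₁n, hE₁c.trans (Nat.mul_le_mul_right _ hΘ12),
      (E₁.image Prod.fst).card * (κ * ((n + 1) ^ n * pdeg (β ^ L) k₀ v1)), 0, 0, ?_, ?_,
      sideN_zero _ _ _ _ _ _ _ _ _, Or.inl rfl⟩
    · exact hc.trans (hz1 _ _)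
    · exact (sideN_deg0 (by omega) hd1 hg1 hSc1 rfl (hκ h) (q2.trans hβΘ) hΘ12).mono hΨ1
  by_cases hd2 : v2 k₀ = n
  · -- `σ₂ = 0`
    have hsw : swp E₁ ⊆ swp E₀ := Finset.map_subset_map.2 hE₁
    have hc := card_deg0K_famU' (hK2.subset hsw) (E₁.image Prod.snd)
      (fun e he => Finset.mem_image_of_mem _ he) hb1 h2 (by omega : k₀ ≤ K₁) hd2
    refine ⟨h, hh, E₁, hE₁, hE₁n, hE₁c.trans (Nat.mul_le_mul_right _ hΘ12), 0,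
      (E₁.image Prod.snd).card * (κ * ((n + 1) ^ n * pdeg (β ^ L) k₀ v2)), 0, ?_,
      sideN_zero _ _ _ _ _ _ _ _ _, ?_, Or.inl rfl⟩
    · exact hc.trans (hz2 _ _)
    · exact (sideN_deg0 (by omega) hd2 hg2 hSc2 rfl (hκ h) (q2.trans hβΘ) hΘ12).mono hΨ1
  -- the main case
  obtain ⟨E₂, hE₂, hE₂n, hE₂c, D, hD, O, -⟩ := hBO β hβ₂ K₁ k₀ E₁ vF v1 v2 hE₁n hF h1 h2
    (by omega) hconst htight (by omega) (by omega) P B k hB (hE₁.trans hE₀z)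
  have hEB := Vale.Agent.P054.T3.H182.BOut.edgeB O (H622.vertS hn) hB ((hE₂.trans hE₁).trans hE₀z)
  have hSc1' : (E₂.image Prod.fst).card ≤ (E₁.image Prod.fst).card :=
    Finset.card_le_card (Finset.image_subset_image hE₂)
  have hSc2' : (E₂.image Prod.snd).card ≤ (E₁.image Prod.snd).card :=
    Finset.card_le_card (Finset.image_subset_image hE₂)
  have hmono : ∀ (v : ℕ → ℕ), (∀ k l : ℕ, k ≤ l → l ≤ K₁ → v k ≤ v l) → ∀ j < v k₀,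
      (β ^ L) ^ kap (k₀ + 1) v j ≤ (β ^ L) ^ k₀ := fun v hv j hj =>
    Nat.pow_le_pow_right hb1 (H580.kap_le_of_lt (k₀ + 1) v
      (fun k l hkl hl => hv k l hkl (by omega)) j k₀ hj)
  have hcount := H533.BOut.count3T O hn (fun i _ => Nat.one_le_pow _ _ hb1)
    (fun i _ => Nat.one_le_pow _ _ hb1) (fun i _ => Nat.one_le_pow _ _ hb1) ht1 hB
    ((hE₂.trans hE₁).trans hE₀z) hIso hFl hPG
    (G₁ := Gh h (n - v1 k₀)) (G₂ := Gh h (n - v2 k₀)) (fun h3 => hGi h _ h3)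
    (fun h3 => hGi h _ h3) (Sg₁ := E₂.image Prod.fst) (Sg₂ := E₂.image Prod.snd)
    (hs1.subset fun s hs => by
      obtain ⟨e, he, rfl⟩ := Finset.mem_image.1 hs
      exact hS1 e (hE₁ (hE₂ he)))
    (hs2.subset fun s hs => by
      obtain ⟨e, he, rfl⟩ := Finset.mem_image.1 hs
      exact hS2 e (hE₁ (hE₂ he)))
    (fun e he => Finset.mem_image_of_mem _ he) (fun e he => Finset.mem_image_of_mem _ he)
    hD (q3.trans hbβ) (q4.trans hbβ) (q5.trans hbβ) (q6.trans hbβ)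
  have hPSb := hPS.apply hh (hE₂.trans hE₁) O (Nat.one_le_pow _ _ hb1)
    (hW.trans (Nat.mul_le_mul_right _ hΘ12))
    (by
      refine hD.trans ?_
      rw [← pow_mul]
      refine Nat.pow_le_pow_right hβ1 ?_
      have e1 : mS n L (KB n (CB n)) (2 * MV n) * KB n (CB n) ≤ aBC n L (2 * MV n) := by
        unfold aBC
        have : mS n L (KB n (CB n)) (2 * MV n) * KB n (CB n) * 1 ≤
          mS n L (KB n (CB n)) (2 * MV n) * KB n (CB n) * (4 * (n + 1)) :=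
          Nat.mul_le_mul_left _ (by omega)
        omega
      have e2 : L * (mS n L (KB n (CB n)) (2 * MV n) * KB n (CB n)) ≤
        L * aBC n L (2 * MV n) := Nat.mul_le_mul_left _ e1
      unfold CC2
      omega)
    (fun j => Nat.one_le_pow _ _ hb1) (fun j => Nat.one_le_pow _ _ hb1)
    (fun j hj => hmono v1 h1.mono j (by omega)) (fun j hj => hmono v2 h2.mono j (by omega)) hEB
    (G₁ := Gh h (n - v1 k₀)) (G₂ := Gh h (n - v2 k₀)) (fun h3 => by rw [h3])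
    (fun h3 => by rw [h3])
  rw [prod_eq_pdeg (σ := n - v1 k₀) (v := v1) (by omega),
    prod_eq_pdeg (σ := n - v2 k₀) (v := v2) (by omega)] at hcount hPSb
  have hgF' : 1 ≤ vF k₀ → (∏ i : Fin (vF k₀), (β ^ L) ^ kap (k₀ + 1) vF (i : ℕ)) *
      (β ^ L) ^ (h / 6) ≤ Θ₁ * τ ^ vF k₀ := hgF
  set DF := ∏ i : Fin (vF k₀), (β ^ L) ^ kap (k₀ + 1) vF (i : ℕ) with hDF
  refine ⟨h, hh, E₂, hE₂.trans hE₁, hE₂n, ?_, _, _, _, ?_,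
    sideN_of (Cb := (β ^ L) ^ aBC n L (2 * MV n)) (Ψ := Ψ h) (σ := n - v1 k₀)
      (S := (E₂.image Prod.fst).card) (D := pdeg (β ^ L) k₀ v1) (G' := Gh h (n - v1 k₀)) hn
      (by omega) (by omega) (hg1.mono le_rfl hSc1')
      (hSc1'.trans hSc1) rfl rfl hCbΘ hΘ12 hΘ1pos (by omega),
    sideN_of (Cb := (β ^ L) ^ aBC n L (2 * MV n)) (Ψ := Ψ h) (σ := n - v2 k₀)
      (S := (E₂.image Prod.snd).card) (D := pdeg (β ^ L) k₀ v2) (G' := Gh h (n - v2 k₀)) hn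
      (by omega) (by omega) (hg2.mono le_rfl hSc2')
      (hSc2'.trans hSc2) rfl rfl hCbΘ hΘ12 hΘ1pos (by omega),
    thirdN_of (Cb := (β ^ L) ^ aBC n L (2 * MV n)) (σ₁ := n - v1 k₀) (σ₂ := n - v2 k₀)
      (DF := DF) (by omega) (by omega) hvF htight hgF' hCbΘ⟩
  · calc E₀.card ≤ Θ₁ * E₁.card := hE₁c
      _ ≤ Θ₁ * (β ^ lossBC n * E₂.card) := Nat.mul_le_mul_left _ hE₂c
      _ = β ^ (CC0 n * h + CC1 n L (lenBC n L (2 * MV n)) + lossBC n) * E₂.card := by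
          rw [hΘ₁, pow_add β (CC0 n * h + CC1 n L (lenBC n L (2 * MV n))) (lossBC n)]; ring
      _ ≤ Θ₂ * E₂.card :=
          Nat.mul_le_mul_right _ (Nat.pow_le_pow_right hβ1 (by unfold CC2; omega))
  · have hab : mS n L (KB n (CB n)) (2 * MV n) * KB n (CB n) * (4 * (n + 1)) + 2 =
      aBC n L (2 * MV n) := rfl
    rw [hab] at hcount
    refine hcount.trans ?_
    generalize (E₂.image Prod.fst).card = s1 at hPSb ⊢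
    generalize (E₂.image Prod.snd).card = s2 at hPSb ⊢
    refine (Nat.mul_le_mul_left 2 (Nat.add_le_add_right hPSb _)).trans (le_of_eq ?_)
    ring

end Vale.Agent.P054.T3.H461
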