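import Vale.Agent.P054.T3.H461.MC1

set_option autoImplicit false
set_option linter.unusedSectionVars false
set_option linter.unusedVariables false

/-!
# P054 / T3: `main2`, all sections together for `n = 2`, in natural numbers, class bounds per vertex
-/

namespace Vale.Agent.P054.T3.H461

open Finset MvPolynomial Module
open Vale.Agent.P054.T2 Vale.Agent.P054.T2.SecC
open Vale.Agent.P054.T2.H163
open Vale.Agent.P054.T2.H307 (Ed xF xL NN)
open Vale.Agent.P054.T2.H580 (kap)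
open Vale.Agent.P054.T2.H686 (Qf Crd dists Ez Gm E Ez_ne Ez_Qf zt)
open Vale.Agent.P054.T2.H455 (Sep)
open Vale.Agent.P054.T2.H269 (Cs)
open Vale.Agent.P054.T3.H517 (VBd MV lenV aV CVV exists_vsetsT)
open Vale.Agent.P054.T3.H807 (pdeg pdeg_gain pdeg_nogain leafB)
open Vale.Agent.P054.T3.H182 (F5 BData BOut CB qB)
open Vale.Agent.P054.T3.H533 (MuK card_deg0K_famU card_deg0K_famU' aBC lenBC lossBC exists_BOut
  termF prod_eq_pdeg)
open Vale.Agent.P054.T3.H637 (PSEdge FlatQ)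
open Vale.Agent.P054.T3.H854 (IsoBL)

/-- the contribution `X` of one side, class bounds `m s` (for `σ = 1`), `κ` (for `σ = 0`) -/
def SideV (n Θ g t τ N p Gf κ : ℕ) (Sg : Finset (ZZ n)) (m : ZZ n → ℕ) (X : ℕ) : Prop :=
  X ≤ Θ * (N * Gf) ∨
  ∃ σ : ℕ, σ < n ∧ ∃ (V : Finset (ZZ n)) (D : ℕ), V ⊆ Sg ∧
    X ≤ Θ * (D * ∑ s ∈ V, (t ^ σ + if σ = 0 then κ else m s)) ∧
    D ≤ Θ * τ ^ (n - σ) ∧ (D * g ≤ Θ * τ ^ (n - σ) ∨ V.card * g ≤ Θ * (τ * t ^ n + τ * p))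

theorem sideV_zero (n Θ g t τ N p Gf κ : ℕ) (Sg : Finset (ZZ n)) (m : ZZ n → ℕ) :
    SideV n Θ g t τ N p Gf κ Sg m 0 := Or.inl (Nat.zero_le _)

theorem SideV.mono {n Θ Θ' g t τ N p Gf κ X : ℕ} {Sg : Finset (ZZ n)} {m : ZZ n → ℕ}
    (h : SideV n Θ g t τ N p Gf κ Sg m X) (hΘ : Θ ≤ Θ') : SideV n Θ' g t τ N p Gf κ Sg m X := by
  rcases h with h | ⟨σ, hσ, V, D, h0, h1, h3, h4⟩
  · exact Or.inl (h.trans (Nat.mul_le_mul_right _ hΘ))
  · refine Or.inr ⟨σ, hσ, V, D, h0, h1.trans (Nat.mul_le_mul_right _ hΘ),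
      h3.trans (Nat.mul_le_mul_right _ hΘ), ?_⟩
    rcases h4 with h4 | h4
    · exact Or.inl (h4.trans (Nat.mul_le_mul_right _ hΘ))
    · exact Or.inr (h4.trans (Nat.mul_le_mul_right _ hΘ))

/-- one side, per vertex -/
theorem sideV_of {n Θ Θ' Cb g t τ N p Gf κ σ D k₀ b : ℕ} {m f : ZZ n → ℕ} {v : ℕ → ℕ}
    {V Sg : Finset (ZZ n)} (hV : V ⊆ Sg) (hN : Sg.card ≤ N)
    (hn : 1 ≤ n) (hσ : σ ≤ n) (hσ1 : 1 ≤ σ) (hv : n - σ = v k₀)
    (hSG : SG b Θ g τ t p n k₀ V.card v)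
    (hD : D = pdeg b k₀ v) (hf : σ < n → ∀ s ∈ V, f s ≤ m s) (hΘ : 2 * Cb * Θ ≤ Θ') (hΘ' : Θ ≤ Θ')
    (hΘ1 : 1 ≤ Θ) :
    SideV n Θ' g t τ N p Gf κ Sg m (2 * Cb * (D * ∑ s ∈ V, leafB n σ t (f s) Gf)) := by
  obtain ⟨hs1, hs2⟩ := hSG
  have hCb : 2 * Cb ≤ Θ' := (Nat.le_mul_of_pos_right _ hΘ1).trans hΘ
  rcases Nat.lt_or_ge σ n with hlt | hge
  · right
    have hvpos : v k₀ ≠ 0 := by omega
    refine ⟨σ, hlt, V, D, hV, ?_, ?_, ?_⟩
    · refine Nat.mul_le_mul hCb (Nat.mul_le_mul_left _ (Finset.sum_le_sum fun s hs => ?_))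
      have hl : leafB n σ t (f s) Gf = t ^ σ + f s := if_pos hlt
      rw [hl, if_neg (by omega)]
      exact Nat.add_le_add_left (hf hlt s hs) _
    · rw [hD, hv]
      exact hs1.trans (Nat.mul_le_mul_right _ hΘ')
    · rcases hs2 with h0 | h0 | h0
      · exact absurd h0 hvpos
      · left
        rw [hD, hv]
        exact h0.trans (Nat.mul_le_mul_right _ hΘ')
      · right
        exact h0.trans (Nat.mul_le_mul_right _ hΘ')
  · left
    have hσn : σ = n := by omega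
    have hv0 : v k₀ = 0 := by omega
    have hl : ∀ s, leafB n σ t (f s) Gf = Gf := fun s => if_neg (by omega)
    simp only [hl, Finset.sum_const, smul_eq_mul]
    rw [hv0, pow_zero, mul_one, ← hD] at hs1
    calc 2 * Cb * (D * (V.card * Gf)) ≤ 2 * Cb * (Θ * (N * Gf)) := by
          have := (Finset.card_le_card hV).trans hN
          gcongr
      _ = (2 * Cb * Θ) * (N * Gf) := by ring
      _ ≤ Θ' * (N * Gf) := Nat.mul_le_mul_right _ hΘ

/-- the degenerate case `σ = 0`, per vertex form -/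
theorem sideV_deg0 {n Θ Θ' g t τ N p Gf κ D k₀ b c : ℕ} {m : ZZ n → ℕ} {v : ℕ → ℕ}
    {V Sg : Finset (ZZ n)} (hV : V ⊆ Sg)
    (hn : 1 ≤ n) (hv : v k₀ = n) (hSG : SG b Θ g τ t p n k₀ V.card v)
    (hD : D = pdeg b k₀ v) (hc : c ≤ Θ') (hΘ' : Θ ≤ Θ') :
    SideV n Θ' g t τ N p Gf κ Sg m (V.card * (κ * (c * D))) := by
  obtain ⟨hs1, hs2⟩ := hSG
  right
  refine ⟨0, hn, V, D, hV, ?_, ?_, ?_⟩
  · rw [pow_zero]
    simp only [if_true, Finset.sum_const, smul_eq_mul]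
    calc V.card * (κ * (c * D)) = c * (D * (V.card * κ)) := by ring
      _ ≤ Θ' * (D * (V.card * (1 + κ))) :=
          Nat.mul_le_mul hc (Nat.mul_le_mul_left _ (Nat.mul_le_mul_left _ (Nat.le_add_left _ _)))
  · rw [hD, Nat.sub_zero, ← hv]
    exact hs1.trans (Nat.mul_le_mul_right _ hΘ')
  · rcases hs2 with h0 | h0 | h0
    · omega
    · left
      rw [hD, Nat.sub_zero, ← hv]
      exact h0.trans (Nat.mul_le_mul_right _ hΘ')
    · right
      exact h0.trans (Nat.mul_le_mul_right _ hΘ')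

end Vale.Agent.P054.T3.H461
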