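import Vale.Agent.P054.T3.H854.Link
import Vale.Agent.P054.T3.H187.PSOut
import Vale.Agent.P054.T3.H398.PSArith
import Vale.Agent.P054.T3.H226.HypProd
import Vale.Agent.P054.T3.H900.Share

set_option autoImplicit false
set_option linter.all false

/-!
# P054 / T3: `psUp`, the planar block in the upper regime
-/

namespace Vale.Agent.P054.T3.H461

open Finset MvPolynomial Module
open Vale.Agent.P054.T2 Vale.Agent.P054.T2.SecC
open Vale.Agent.P054.T2.H307 (Ed)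
open Vale.Agent.P054.T2.H686 (Qf E dists Ez Gm zt zt_injective)
open Vale.Agent.P054.T3.H533 (MuK)
open Vale.Agent.P054.T3.H190 (adjE E1z)
open Vale.Agent.P054.T3.H854 (PSUp)
open Vale.Agent.P054.T3.H398 (Cl kp kp_le flats_core theta_cond)
open Vale.Agent.P054.T3.H187 (ps_out)
open Vale.Agent.P054.T2.H269 (Cc lineCard lineCard_eq)
open Vale.Agent.P054.T3.H182 (BOut)
open Vale.Agent.P054.T3.H637 (PSEdge)
open Vale.Agent.P054.T3.H109.Gen (onL lineC)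

/-- points of `P` on a line -/
theorem lineC_le_two {n : ℕ} {P : Finset (E n)} {t : ℕ} (hP : (dists P).card ≤ t) {x y : E n}
    (hx : x ∈ P) (hxy : x ≠ y) : lineC P x y ≤ 2 * (t + 1) := by
  classical
  have h1 : lineC P x y = lineCard P x y := by
    rw [lineCard_eq, Vale.Agent.P054.T3.H109.Gen.lineC_eq]
    congr 1
  rw [h1]
  refine (Vale.Agent.P054.T2.H269.lineCard_le P hx hxy).trans ?_
  omega

theorem psUp (n : ℕ) (hn : 3 ≤ n) : PSUp n := by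
  classical
  obtain ⟨η, hη, t₁, Hyp⟩ := H226.hyp_prod n (by omega)
  obtain ⟨ε₁, hε₁⟩ : ∃ ε₁ : ℝ, ε₁ = min (1 / 8) η := ⟨_, rfl⟩
  have hε0 : 0 < ε₁ := by rw [hε₁]; exact lt_min (by norm_num) hη
  have hε8 : ε₁ ≤ 1 / 8 := by rw [hε₁]; exact min_le_left _ _
  have hεη : ε₁ ≤ η := by rw [hε₁]; exact min_le_right _ _
  refine ⟨ε₁, hε0, hε8, fun Λ₁ hΛ₁ => ?_⟩
  set A : ℕ := (2 * (2 * (2 * (n + 1)) ^ 2 + 2)) ^ 2 + 1 with hA
  set Cm : ℕ := Λ₁ + 8 * A * (Cl n 1) ^ 2 * (65 + H691.kST * n * Λ₁) with hCm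
  set c₀ : ℕ := 4 * (n + 1) * CC0 n with hc₀
  refine ⟨Cc n + Cm, 2 * (n + 1), max 1 (max c₀ ⌈4 * ((c₀ : ℕ) : ℝ) / ε₁⌉₊), fun L hL =>
    ⟨1, fun β hβ K hK => ?_⟩⟩
  have hL1 : 1 ≤ L := (le_max_left _ _).trans hL
  have hLc : c₀ ≤ L := ((le_max_left _ _).trans (le_max_right _ _)).trans hL
  have hLε : 4 * ((c₀ : ℕ) : ℝ) / ε₁ ≤ L :=
    (Nat.le_ceil _).trans (by
      exact_mod_cast ((le_max_right _ _).trans (le_max_right _ _)).trans hL)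
  obtain ⟨t₂, ht₂⟩ := theta_cond n 1 (CC0 n) (CC2 n L) L Λ₁ β hε0 hL1 hLc hLε hΛ₁
  refine ⟨max t₁ t₂, fun t ht ht1 P hPd hP1 hP2 B S τ ell hB hS hz hext hell hell' hτ => ?_⟩
  intro h hh E₂ hE₂ W D c₁ dF d1 d2 O hW1 hW hD hd1 hd2 hdW1 hdW2 hEB
  dsimp only at hW hD ⊢
  set Θ : ℕ := β ^ (CC0 n * h + CC2 n L) with hΘdef
  have hΘ1 : 1 ≤ Θ := Nat.one_le_pow _ _ hβ
  have hPt : (t : ℝ) ^ (((n + 1 : ℕ) : ℝ) / 2) ≤ P.card :=
    (le_mul_of_one_le_left (by positivity) hK).trans hP1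
  have hβh : (β ^ L) ^ h ≤ Λ₁ * t :=
    ((Nat.pow_le_pow_right (Nat.one_le_pow _ _ hβ) hh).trans hell).trans hτ
  have hΘt := ht₂ t ((le_max_right _ _).trans ht) ht1 h hβh
  have hyp : ∀ {J : Type} [Fintype J] (f : J → MvPolynomial (Fin (n + 1) ⊕ Fin (n + 1)) ℝ),
        (∀ j, f j ≠ 0) → ((∑ j, (f j).totalDegree : ℕ) : ℝ) ≤ (t : ℝ) ^ η →
        ∀ Z ⊆ P ×ˢ P, (∀ s ∈ Z, ∃ j, MvPolynomial.eval (Sum.elim s.1 s.2) (f j) = 0) →
          (Z.card : ℝ) ≤ (P.card : ℝ) ^ (2 - η) := by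
    intro J _ f hf hfd Z hZ hZ0
    refine le_trans ?_ (Hyp t ((le_max_left _ _).trans ht) ht1 P hPd hPt f hf hfd)
    refine Nat.cast_le.2 (Finset.card_le_card fun s hs => ?_)
    exact Finset.mem_filter.2 ⟨hZ hs, hZ0 s hs⟩
  obtain ⟨m, hm, hcore⟩ := flats_core hn (Cf := 1) le_rfl hε0 (hε8.trans (by norm_num)) hεη ht1
    adjE hS hPt hz hext hyp hΘ1 hΘt
  set mu : ℕ := (n - 1) * W + 1 with hmu
  set M' : ℕ := W + 8 * kp (2 * (n + 1)) m * (16 * (2 * (t + 1)) + 1 + H691.kST * mu) with hM'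
  -- the size of `M'`
  have hWt : W ≤ Λ₁ * Θ * t := by
    calc W ≤ Θ * τ := hW
      _ ≤ Θ * (Λ₁ * t) := Nat.mul_le_mul_left _ hτ
      _ = _ := by ring
  have hkp : kp (2 * (n + 1)) m ≤ A * (Cl n 1 * Θ) ^ 2 := by
    refine (kp_le _ _).trans (Nat.mul_le_mul_left _ ?_)
    calc 4 ^ m = (2 ^ m) ^ 2 := by rw [← pow_mul, mul_comm, pow_mul]; norm_num
      _ ≤ (Cl n 1 * Θ) ^ 2 := Nat.pow_le_pow_left hm 2
  have hmuW : mu ≤ n * W := by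
    rw [hmu]
    obtain ⟨k, rfl⟩ : ∃ k, n = k + 1 := ⟨n - 1, by omega⟩
    rw [Nat.add_sub_cancel, Nat.add_mul, Nat.one_mul]
    omega
  have hin : 16 * (2 * (t + 1)) + 1 + H691.kST * mu ≤ (65 + H691.kST * n * Λ₁) * (Θ * t) := by
    have e1 : 16 * (2 * (t + 1)) + 1 ≤ 65 * t := by omega
    have e2 : 65 * t ≤ 65 * (Θ * t) := Nat.mul_le_mul_left _ (Nat.le_mul_of_pos_left _ hΘ1)
    have e3 : H691.kST * mu ≤ H691.kST * n * Λ₁ * (Θ * t) := by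
      calc H691.kST * mu ≤ H691.kST * (n * (Λ₁ * Θ * t)) :=
            Nat.mul_le_mul_left _ (hmuW.trans (Nat.mul_le_mul_left _ hWt))
        _ = _ := by ring
    rw [Nat.add_mul]
    omega
  have hΘ3 : M' ≤ Cm * Θ ^ 3 * t := by
    have e1 : W ≤ Λ₁ * Θ ^ 3 * t := by
      refine hWt.trans (Nat.mul_le_mul_right _ (Nat.mul_le_mul_left _ ?_))
      exact Nat.le_self_pow (by norm_num) _
    have e2 : 8 * kp (2 * (n + 1)) m * (16 * (2 * (t + 1)) + 1 + H691.kST * mu) ≤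
        8 * A * (Cl n 1) ^ 2 * (65 + H691.kST * n * Λ₁) * Θ ^ 3 * t := by
      calc 8 * kp (2 * (n + 1)) m * (16 * (2 * (t + 1)) + 1 + H691.kST * mu)
          ≤ 8 * (A * (Cl n 1 * Θ) ^ 2) * ((65 + H691.kST * n * Λ₁) * (Θ * t)) := by gcongr
        _ = _ := by ring
    calc M' ≤ Λ₁ * Θ ^ 3 * t +
          8 * A * (Cl n 1) ^ 2 * (65 + H691.kST * n * Λ₁) * Θ ^ 3 * t := Nat.add_le_add e1 e2
      _ = Cm * Θ ^ 3 * t := by rw [hCm]; ring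
  have hΘ3' : Θ ^ 3 ≤ Θ ^ (2 * (n + 1)) := Nat.pow_le_pow_right hΘ1 (by omega)
  have hM1 : M' ≤ (Cc n + Cm) * Θ ^ (2 * (n + 1)) * t := by
    refine hΘ3.trans (Nat.mul_le_mul_right _ ?_)
    exact Nat.mul_le_mul (Nat.le_add_left _ _) hΘ3'
  have hΨ : Cc n * D ^ (2 * (n + 1)) ≤ (Cc n + Cm) * Θ ^ (2 * (n + 1)) :=
    Nat.mul_le_mul (Nat.le_add_right _ _) (Nat.pow_le_pow_left hD _)
  -- the planes
  have hmu1 := H190.muK_E1z (B := B) hB (by omega : 2 ≤ n) hS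
  have hmu2 := H190.muK_swp_E1z (B := B) hB (by omega : 2 ≤ n) hS
  have hswp : swp E₂ ⊆ swp (E1z B S) := Finset.map_subset_map.2 hE₂
  obtain ⟨𝓕, SF, RF, k1, k2, k3, k4, k5, k6, k7, k8⟩ := ps_out hn hB
    (hE₂.trans (H190.E1z_subset B hS)) O hd1 hd2 (hmu1.subset hE₂) (hmu2.subset hswp) (M := M')
    (by rw [Nat.one_mul, hM']; exact Nat.le_add_right _ _)
    ((Cc n + Cm) * Θ ^ (2 * (n + 1)) * t) ((Cc n + Cm) * Θ ^ (2 * (n + 1)) * t) S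
    (fun e he => H190.E1z_fst (hE₂ he)) (fun e he => H190.E1z_snd (hE₂ he))
  have hM0 : 8 * kp (2 * (n + 1)) m * (16 * (2 * (t + 1)) + 1 + H691.kST * mu) ≤ M' :=
    Nat.le_add_left _ _
  have hline : ∀ (A : Finset (E n × E n)), A ⊆ S →
      (∀ s ∈ A, ∀ r ∈ A, s ≠ r → s.1 ≠ r.1 ∧ dist s.1 r.1 = dist s.2 r.2) →
      ∀ p ∈ A.offDiag, lineC A p.1 p.2 ≤ 2 * (t + 1) := by
    intro A hA hadj p hp
    obtain ⟨hp1, hp2, hne⟩ := mem_offDiag.1 hp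
    have h1 := (hadj p.1 hp1 p.2 hp2 hne).1
    exact (H900.lineC_prod_le P P (hA.trans hS) h1).trans
      (lineC_le_two hPd (mem_product.1 (hS (hA hp1))).1 h1)
  have hs1 := hcore 𝓕 SF (fun F hF => (k1 F hF).1) k4 k2 mu (2 * (t + 1))
    (fun F hF => hline _ (k1 F hF).1 (k4 F hF)) (fun F hF => hM0.trans (k1 F hF).2.2.1.le) (by
      intro F hF s hs
      obtain ⟨U, hU, hU'⟩ := k6 F hF s hs
      refine ⟨U, hU, fun F' hF' hne hs' u hu => ?_⟩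
      obtain ⟨hu1, hu2⟩ := mem_inter.1 hu
      exact hU' F' hF' hne hs' u (H691.mem_dirs.1 hu1) (H691.mem_dirs.1 hu2))
  have hs2 := hcore 𝓕 RF (fun F hF => (k1 F hF).2.1) k5 k3 mu (2 * (t + 1))
    (fun F hF => hline _ (k1 F hF).2.1 (k5 F hF)) (fun F hF => hM0.trans (k1 F hF).2.2.2.le) (by
      intro F hF s hs
      obtain ⟨U, hU, hU'⟩ := k7 F hF s hs
      refine ⟨U, hU, fun F' hF' hne hs' u hu => ?_⟩
      obtain ⟨hu1, hu2⟩ := mem_inter.1 hu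
      exact hU' F' hF' hne hs' u (H691.mem_dirs.1 hu1) (H691.mem_dirs.1 hu2))
  have hR : ∑ F ∈ 𝓕, (SF F).card * (RF F).card ≤ H190.W adjE S / (8 * Θ) := by
    rw [Nat.le_div_iff_mul_le (by omega)]
    have e1 : 2 * ∑ F ∈ 𝓕, (SF F).card * (RF F).card ≤
        ∑ F ∈ 𝓕, (SF F).card ^ 2 + ∑ F ∈ 𝓕, (RF F).card ^ 2 := by
      rw [Finset.mul_sum, ← Finset.sum_add_distrib]
      refine Finset.sum_le_sum fun F _ => ?_
      have := two_mul_le_add_sq ((SF F).card) ((RF F).card)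
      rw [← mul_assoc]
      exact this
    have e2 : 2 * ((∑ F ∈ 𝓕, (SF F).card * (RF F).card) * (8 * Θ)) ≤ 2 * H190.W adjE S := by
      calc 2 * ((∑ F ∈ 𝓕, (SF F).card * (RF F).card) * (8 * Θ))
          = (8 * 1 * Θ) * (2 * ∑ F ∈ 𝓕, (SF F).card * (RF F).card) := by ring
        _ ≤ (8 * 1 * Θ) * (∑ F ∈ 𝓕, (SF F).card ^ 2 + ∑ F ∈ 𝓕, (RF F).card ^ 2) :=
            Nat.mul_le_mul_left _ e1
        _ = 8 * 1 * Θ * ∑ F ∈ 𝓕, (SF F).card ^ 2 + 8 * 1 * Θ * ∑ F ∈ 𝓕, (RF F).card ^ 2 := by ring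
        _ ≤ H190.W adjE S + H190.W adjE S := Nat.add_le_add hs1 hs2
        _ = _ := by ring
    omega
  calc _ ≤ _ := k8
    _ ≤ _ := by gcongr

end Vale.Agent.P054.T3.H461
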