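import Vale.Agent.P054.T3.H461.LS

set_option autoImplicit false
set_option linter.unusedSectionVars false
set_option linter.unusedVariables false

/-!
# P054 / T3: section A, combinatorics of the levels
-/

namespace Vale.Agent.P054.T3.H461

open Finset

/-- pigeonhole: a long run of constancy between two elements of `T` -/
theorem exists_run {K c len : ℕ} (u : ℕ → ℕ) (huc : ∀ k < K, u k ≤ c) (T : Finset ℕ)
    (hT : ∀ k ∈ T, k < K) (hlen : 1 ≤ len) (hcard : (c + 1) * (len - 1) < T.card) :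
    ∃ k₀ ∈ T, ∃ k₁ ∈ T, k₀ + len ≤ k₁ + 1 ∧ u k₀ = u k₁ := by
  classical
  obtain ⟨y, -, hy⟩ := Finset.exists_lt_card_fiber_of_mul_lt_card_of_maps_to
    (s := T) (t := range (c + 1)) (f := u) (n := len - 1)
    (fun k hk => Finset.mem_range.2 (Nat.lt_succ_of_le (huc k (hT k hk))))
    (by rwa [Finset.card_range])
  set F := T.filter (fun k => u k = y) with hF
  have hFne : F.Nonempty := Finset.card_pos.1 (by omega)
  have h1 := Finset.min'_mem F hFne
  have h2 := Finset.max'_mem F hFne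
  have h3 : F ⊆ Finset.Icc (F.min' hFne) (F.max' hFne) := fun k hk =>
    Finset.mem_Icc.2 ⟨Finset.min'_le F k hk, Finset.le_max' F k hk⟩
  have h4 := Finset.card_le_card h3
  rw [Nat.card_Icc] at h4
  refine ⟨F.min' hFne, (Finset.mem_filter.1 h1).1, F.max' hFne, (Finset.mem_filter.1 h2).1, ?_, ?_⟩
  · omega
  · rw [(Finset.mem_filter.1 h1).2, (Finset.mem_filter.1 h2).2]

/-- the values of the three families at the levels `≤ Kf`, with the gap inequality and the sum of
the gaps -/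
structure Lev (n Kf R : ℕ) (vF v1 v2 : ℕ → ℕ) : Prop where
  monoF : ∀ k l : ℕ, k ≤ l → l ≤ Kf → vF k ≤ vF l
  mono1 : ∀ k l : ℕ, k ≤ l → l ≤ Kf → v1 k ≤ v1 l
  mono2 : ∀ k l : ℕ, k ≤ l → l ≤ Kf → v2 k ≤ v2 l
  leF : ∀ k ≤ Kf, vF k ≤ 2 * n + 1
  le1 : ∀ k ≤ Kf, v1 k ≤ n
  le2 : ∀ k ≤ Kf, v2 k ≤ n
  slope : ∀ k ≤ Kf, (n - v1 k) + (n - v2 k) ≤ (2 * n + 1) - vF k
  gaps : ∑ k ∈ range Kf, (((2 * n + 1) - vF k) - ((n - v1 k) + (n - v2 k))) + R ≤ Kf

namespace Lev

variable {n Kf R : ℕ} {vF v1 v2 : ℕ → ℕ}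

/-- equality of the sums of the values gives equality of the values -/
theorem eq_of_sum (h : Lev n Kf R vF v1 v2) {k l : ℕ} (hkl : k ≤ l) (hl : l ≤ Kf)
    (hs : vF k + v1 k + v2 k = vF l + v1 l + v2 l) :
    vF k = vF l ∧ v1 k = v1 l ∧ v2 k = v2 l := by
  have a := h.monoF k l hkl hl
  have b := h.mono1 k l hkl hl
  have c := h.mono2 k l hkl hl
  omega

theorem sum_le (h : Lev n Kf R vF v1 v2) {k : ℕ} (hk : k ≤ Kf) :
    vF k + v1 k + v2 k ≤ 4 * n + 1 := by
  have a := h.leF k hk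
  have b := h.le1 k hk
  have c := h.le2 k hk
  omega

/-- the run: constant values between two levels with the same sum -/
theorem const_of_run (h : Lev n Kf R vF v1 v2) {k₀ k₁ : ℕ} (h₁ : k₁ ≤ Kf)
    (hs : vF k₀ + v1 k₀ + v2 k₀ = vF k₁ + v1 k₁ + v2 k₁) {k : ℕ} (hk₀ : k₀ ≤ k) (hk₁ : k ≤ k₁) :
    vF k = vF k₀ ∧ v1 k = v1 k₀ ∧ v2 k = v2 k₀ := by
  have a := h.eq_of_sum (hk₀.trans hk₁) h₁ hs
  have b1 := h.monoF k₀ k hk₀ (hk₁.trans h₁)
  have b2 := h.mono1 k₀ k hk₀ (hk₁.trans h₁)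
  have b3 := h.mono2 k₀ k hk₀ (hk₁.trans h₁)
  have c1 := h.monoF k k₁ hk₁ h₁
  have c2 := h.mono1 k k₁ hk₁ h₁
  have c3 := h.mono2 k k₁ hk₁ h₁
  omega

/-- **TIGHT WINDOW** -/
theorem tight (h : Lev n Kf R vF v1 v2) {len : ℕ} (hlen : 1 ≤ len)
    (hR : (4 * n + 2) * len ≤ R) :
    ∃ k₀, k₀ + len ≤ Kf ∧ (∀ k, k₀ ≤ k → k < k₀ + len →
      vF k = vF k₀ ∧ v1 k = v1 k₀ ∧ v2 k = v2 k₀) ∧
      (2 * n + 1) - vF k₀ = (n - v1 k₀) + (n - v2 k₀) := by
  classical
  set T := (range Kf).filter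
    (fun k => ((2 * n + 1) - vF k) - ((n - v1 k) + (n - v2 k)) = 0) with hT
  have hcard : (4 * n + 2) * len ≤ T.card := by
    have h1 : Kf ≤ T.card +
        ∑ k ∈ range Kf, (((2 * n + 1) - vF k) - ((n - v1 k) + (n - v2 k))) := by
      calc Kf = ∑ k ∈ range Kf, 1 := by simp
        _ ≤ ∑ k ∈ range Kf, ((if ((2 * n + 1) - vF k) - ((n - v1 k) + (n - v2 k)) = 0 then 1
            else 0) + (((2 * n + 1) - vF k) - ((n - v1 k) + (n - v2 k)))) := by
            refine Finset.sum_le_sum fun k _ => ?_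
            split_ifs with h0 <;> omega
        _ = _ := by
            rw [Finset.sum_add_distrib, hT, Finset.card_filter]
    have h2 := h.gaps
    omega
  obtain ⟨k₀, hk₀, k₁, hk₁, h1, h2⟩ := exists_run (K := Kf) (c := 4 * n + 1) (len := len)
    (fun k => vF k + v1 k + v2 k) (fun k hk => h.sum_le hk.le) T
    (fun k hk => Finset.mem_range.1 (Finset.mem_filter.1 hk).1) hlen (by
      have h3 : (4 * n + 1 + 1) * (len - 1) < (4 * n + 1 + 1) * len :=
        Nat.mul_lt_mul_of_pos_left (by omega) (by omega)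
      have h4 : (4 * n + 1 + 1) * len = (4 * n + 2) * len := rfl
      omega)
  have hk₁' := Finset.mem_range.1 (Finset.mem_filter.1 hk₁).1
  have hk₀' := Finset.mem_filter.1 hk₀
  have hk₀K := Finset.mem_range.1 hk₀'.1
  refine ⟨k₀, by omega, fun k hka hkb => h.const_of_run hk₁'.le h2 hka (by omega), ?_⟩
  have h3 := h.slope k₀ hk₀K.le
  have h4 := hk₀'.2
  omega

/-- **STABLE WINDOW** in an interval -/
theorem stable (h : Lev n Kf R vF v1 v2) {len lo : ℕ} (hlen : 1 ≤ len)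
    (hlo : lo + (4 * n + 2) * len ≤ Kf + 1) :
    ∃ k₀, lo ≤ k₀ ∧ k₀ + len ≤ lo + (4 * n + 2) * len ∧ (∀ k, k₀ ≤ k → k < k₀ + len →
      vF k = vF k₀ ∧ v1 k = v1 k₀ ∧ v2 k = v2 k₀) := by
  classical
  set T := Finset.Ico lo (lo + (4 * n + 2) * len) with hT
  have hcard : (4 * n + 2) * len = T.card := by rw [hT, Nat.card_Ico]; omega
  obtain ⟨k₀, hk₀, k₁, hk₁, h1, h2⟩ := exists_run (K := Kf + 1) (c := 4 * n + 1) (len := len)
    (fun k => vF k + v1 k + v2 k) (fun k hk => h.sum_le (by omega)) T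
    (fun k hk => by have := (Finset.mem_Ico.1 hk).2; omega) hlen (by
      have h3 : (4 * n + 1 + 1) * (len - 1) < (4 * n + 1 + 1) * len :=
        Nat.mul_lt_mul_of_pos_left (by omega) (by omega)
      have h4 : (4 * n + 1 + 1) * len = (4 * n + 2) * len := rfl
      omega)
  obtain ⟨a1, a2⟩ := Finset.mem_Ico.1 hk₀
  obtain ⟨b1, b2⟩ := Finset.mem_Ico.1 hk₁
  exact ⟨k₀, a1, by omega, fun k hka hkb => h.const_of_run (by omega) h2 hka (by omega)⟩

/-- **THE FIRST DROP OF `F`**: if some family has dropped at the level `ell - h`, then `F` has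
dropped at the level `ell - h / 3` -/
theorem dropF (h : Lev n Kf R vF v1 v2) {ell hh : ℕ} (hle : hh ≤ ell) (hK : ell ≤ Kf)
    (hfirst : 1 ≤ vF (ell - hh) ∨ 1 ≤ v1 (ell - hh) ∨ 1 ≤ v2 (ell - hh))
    (hx : Kf < ell + hh / 3 + R) (hh3 : 1 ≤ hh / 3) : 1 ≤ vF (ell - hh / 3) := by
  by_contra hcon
  have h0 : vF (ell - hh / 3) = 0 := by omega
  set m := ell - hh / 3 with hm
  have hmK : m < Kf := by omega
  have hz : ∀ k ≤ m, vF k = 0 := fun k hk => by
    have := h.monoF k m hk hmK.le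
    omega
  have hf : 1 ≤ v1 (ell - hh) ∨ 1 ≤ v2 (ell - hh) := by
    rcases hfirst with h1 | h1 | h1
    · exact absurd (hz (ell - hh) (by omega)) (by omega)
    · exact Or.inl h1
    · exact Or.inr h1
  have hge : ∑ k ∈ range Kf, (((2 * n + 1) - vF k) - ((n - v1 k) + (n - v2 k))) ≥
      (m + 1) + (m + 1 - (ell - hh)) := by
    have h1 : ∀ k ∈ range Kf, (if k < m + 1 then 1 else 0) +
        (if ell - hh ≤ k ∧ k < m + 1 then 1 else 0) ≤
        (((2 * n + 1) - vF k) - ((n - v1 k) + (n - v2 k))) := by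
      intro k hk
      have hkK := Finset.mem_range.1 hk
      have a1 := h.le1 k hkK.le
      have a2 := h.le2 k hkK.le
      split_ifs with c1 c2 c2
      · have hzk := hz k (by omega)
        rcases hf with h2 | h2
        · have := h.mono1 (ell - hh) k c2.1 hkK.le
          omega
        · have := h.mono2 (ell - hh) k c2.1 hkK.le
          omega
      · have hzk := hz k (by omega)
        omega
      · omega
      · omega
    have h2 := Finset.sum_le_sum h1
    rw [Finset.sum_add_distrib, ← Finset.card_filter, ← Finset.card_filter] at h2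
    have e1 : ((range Kf).filter (fun k => k < m + 1)).card = m + 1 := by
      have : (range Kf).filter (fun k => k < m + 1) = range (m + 1) := by
        ext k
        simp only [Finset.mem_filter, Finset.mem_range]
        omega
      rw [this, Finset.card_range]
    have e2 : ((range Kf).filter (fun k => ell - hh ≤ k ∧ k < m + 1)).card =
        m + 1 - (ell - hh) := by
      have : (range Kf).filter (fun k => ell - hh ≤ k ∧ k < m + 1) =
          Finset.Ico (ell - hh) (m + 1) := by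
        ext k
        simp only [Finset.mem_filter, Finset.mem_range, Finset.mem_Ico]
        omega
      rw [this, Nat.card_Ico]
    rw [e1, e2] at h2
    exact h2
  have h2 := h.gaps
  omega

end Lev

end Vale.Agent.P054.T3.H461
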