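import Vale.Agent.P054.T3.H461.SA0
import Vale.Agent.P054.T2.H686.TightWin
import Vale.Agent.P054.T2.H686.Setup
import Vale.Agent.P054.T2.H580.Inst

set_option autoImplicit false
set_option linter.unusedSectionVars false
set_option linter.unusedVariables false

/-!
# P054 / T3: section A, the three families `F`, `L1`, `L2` at unboundedly many fine levels
-/

namespace Vale.Agent.P054.T3.H461

open Finset MvPolynomial Module
open Vale.Agent.P054.T2.H307 (gfr gfr_mono_set gfr_le gr gr_mono gr_le fib mem_fib fib_unit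
  fib_mono fib_subset self_mem_fib van van_mono mem_van pts mem_pts pts_mono pts_nonempty
  Ed xF xL)
open Vale.Agent.P054.T2.H580 (rkF hilbF IsFilt isFilt_total kap fib_eq)
open Vale.Agent.P054.T2.H686 (Crd Qf gpt upt rank_ineq slope_edge card_Crd)
open Vale.Agent.P054.T2.H441 (rkY)

/-- the three families of section A -/
inductive FA
  | F | L1 | L2
  deriving DecidableEq

instance : Fintype FA := ⟨{FA.F, FA.L1, FA.L2}, fun x => by cases x <;> decide⟩

variable {n : ℕ}

/-- the gradient ranks of the three families at the levels `b ^ k` -/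
noncomputable def cS (n b : ℕ) : FA × ℕ → Finset (Ed n ℝ) → Ed n ℝ → ℕ
  | (FA.F, k) => gfr xF (fun _ => ()) (restrictTotalDegree (Crd n) ℝ) (b ^ k)
  | (FA.L1, k) => gfr xL Prod.fst (restrictTotalDegree (Fin n) ℝ) (b ^ k)
  | (FA.L2, k) => gfr xL Prod.snd (restrictTotalDegree (Fin n) ℝ) (b ^ k)

theorem cS_mono_set (b : ℕ) (j : FA × ℕ) {A B : Finset (Ed n ℝ)} (hAB : A ⊆ B) (e : Ed n ℝ) :
    cS n b j B e ≤ cS n b j A e := by
  obtain ⟨X, k⟩ := j
  cases X
  all_goals exact gfr_mono_set _ _ _ _ hAB e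

theorem cS_mono_lev {b : ℕ} (hb : 1 ≤ b) (X : FA) {k l : ℕ} (hkl : k ≤ l) (A : Finset (Ed n ℝ))
    (e : Ed n ℝ) : cS n b (X, k) A e ≤ cS n b (X, l) A e := by
  cases X
  · exact gr_mono (Finset.Subset.refl _) (rtd_mono (Nat.pow_le_pow_right hb hkl)) _
  · exact gr_mono (Finset.Subset.refl _) (rtd_mono (Nat.pow_le_pow_right hb hkl)) _
  · exact gr_mono (Finset.Subset.refl _) (rtd_mono (Nat.pow_le_pow_right hb hkl)) _

/-- dimension of the ambient space of a family -/
def dS (n : ℕ) : FA → ℕ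
  | FA.F => 2 * n + 1
  | FA.L1 => n
  | FA.L2 => n

theorem cS_le (b : ℕ) (X : FA) (k : ℕ) (A : Finset (Ed n ℝ)) (e : Ed n ℝ) :
    cS n b (X, k) A e ≤ dS n X := by
  cases X
  · exact (gfr_le _ _ _ _ _ _).trans (le_of_eq (card_Crd n))
  · exact (gfr_le _ _ _ _ _ _).trans (le_of_eq (Fintype.card_fin n))
  · exact (gfr_le _ _ _ _ _ _).trans (le_of_eq (Fintype.card_fin n))

/-- some family has dropped at the level `k` on all of `A` -/
def DropAt (b : ℕ) (A : Finset (Ed n ℝ)) (k : ℕ) : Prop := ∃ X : FA, ∀ e ∈ A, 1 ≤ cS n b (X, k) A e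

theorem DropAt.subset {b : ℕ} {A A' : Finset (Ed n ℝ)} {k : ℕ} (h : DropAt b A k) (hA : A' ⊆ A) :
    DropAt b A' k := by
  obtain ⟨X, h⟩ := h
  exact ⟨X, fun e he => (h e (hA he)).trans (cS_mono_set b _ hA e)⟩

/-- a dense subset with a drop at distance `h` -/
def PH (b β c ell : ℕ) (E₀ : Finset (Ed n ℝ)) (h : ℕ) : Prop :=
  ∃ A ⊆ E₀, A.Nonempty ∧ E₀.card ≤ β ^ (2 * c * h) * A.card ∧ (h = 0 ∨ DropAt b A (ell - h))

/-- **the uniformisation with the choice of the distance `h` of the first drop**.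
`c = 4 n + 1`; `x h` = number of levels above `ell`. -/
theorem exists_first (b β ell : ℕ) (hb : 1 ≤ b) (hβ : 2 ≤ β) (E₀ : Finset (Ed n ℝ))
    (hE₀ : E₀.Nonempty) (x : ℕ → ℕ) :
    ∃ h ≤ ell, ∃ E ⊆ E₀, E.Nonempty ∧ ∃ v : FA × ℕ → ℕ,
      E₀.card ≤ β ^ (4 * (4 * n + 1) * h + 2 * (4 * n + 1) * (x h + 1)) * E.card ∧
      (∀ X, ∀ k ≤ ell + x h, ∃ e ∈ E, v (X, k) = cS n b (X, k) E e) ∧
      IsBig (cS n b) (univ ×ˢ range (ell + x h + 1)) β 0 E v ∧
      (1 ≤ h → ∃ X, 1 ≤ v (X, ell - h)) := by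
  classical
  set c := 4 * n + 1 with hc
  have h0 : PH (n := n) b β c ell E₀ 0 := ⟨E₀, Finset.Subset.refl _, hE₀, by simp, Or.inl rfl⟩
  set h := Nat.findGreatest (PH (n := n) b β c ell E₀) ell with hh
  have hhle : h ≤ ell := Nat.findGreatest_le _
  have hP : PH (n := n) b β c ell E₀ h := Nat.findGreatest_spec (Nat.zero_le _) h0
  have hmax : ∀ m, h < m → m ≤ ell → ¬ PH (n := n) b β c ell E₀ m := fun m h1 h2 =>
    Nat.findGreatest_is_greatest h1 h2
  obtain ⟨A, hA, hAn, hAc, hdrop⟩ := hP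
  set Kf := ell + x h with hKf
  set J : Finset (FA × ℕ) := univ ×ˢ range (Kf + 1) with hJ
  have hmemJ : ∀ X, ∀ k ≤ Kf, (X, k) ∈ J := fun X k hk => by
    rw [hJ, Finset.mem_product]
    exact ⟨Finset.mem_univ _, Finset.mem_range.2 (by omega)⟩
  obtain ⟨E, hEA, hEn, v, hv, hcard, hbig⟩ := exists_big A hAn J (cS n b) β (by omega)
    (fun j _ A' B hAB _ e _ => cS_mono_set b j hAB e)
  have hvle : ∀ X, ∀ k ≤ Kf, v (X, k) ≤ dS n X := fun X k hk => by
    obtain ⟨e, he, h1⟩ := hv _ (hmemJ X k hk)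
    rw [h1]
    exact cS_le _ _ _ _ _
  have hvmono : ∀ X, ∀ k l : ℕ, k ≤ l → l ≤ Kf → v (X, k) ≤ v (X, l) := by
    intro X k l hkl hl
    obtain ⟨e, he, h1⟩ := hv _ (hmemJ X l hl)
    rw [h1]
    exact (hbig.le _ (hmemJ X k (hkl.trans hl)) E (Finset.Subset.refl _) e he).trans
      (cS_mono_lev hb X hkl E e)
  -- the sum of the values
  set u : ℕ → ℕ := fun k => v (FA.F, k) + v (FA.L1, k) + v (FA.L2, k) with hu
  have hsumJ : ∑ j ∈ J, v j = ∑ k ∈ range (Kf + 1), u k := by
    rw [hJ, Finset.sum_product_right]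
    refine Finset.sum_congr rfl fun k _ => ?_
    have : (univ : Finset FA) = {FA.F, FA.L1, FA.L2} := rfl
    rw [this, Finset.sum_insert (by decide), Finset.sum_insert (by decide),
      Finset.sum_singleton]
    show _ = v (FA.F, k) + v (FA.L1, k) + v (FA.L2, k)
    ring
  set Z := (range (Kf + 1)).filter (fun k => 1 ≤ u k) with hZ
  have hule : ∀ k ≤ Kf, u k ≤ c := fun k hk => by
    have a1 := hvle FA.F k hk
    have a2 := hvle FA.L1 k hk
    have a3 := hvle FA.L2 k hk
    simp only [dS] at a1 a2 a3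
    show v (FA.F, k) + v (FA.L1, k) + v (FA.L2, k) ≤ c
    omega
  have hsumle : ∑ j ∈ J, v j ≤ c * Z.card := by
    rw [hsumJ]
    calc ∑ k ∈ range (Kf + 1), u k ≤ ∑ k ∈ range (Kf + 1), c * (if 1 ≤ u k then 1 else 0) := by
          refine Finset.sum_le_sum fun k hk => ?_
          have hk' := Finset.mem_range.1 hk
          split_ifs with h1
          · rw [mul_one]; exact hule k (by omega)
          · omega
      _ = c * Z.card := by rw [← Finset.mul_sum, hZ, Finset.card_filter]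
  -- the number of levels with a drop
  have hZle : Z.card ≤ 2 * h + 2 * x h + 2 := by
    by_contra hcon
    push Not at hcon
    set m := Z.card with hm
    have hmK : m ≤ Kf + 1 := by
      calc m ≤ (range (Kf + 1)).card := Finset.card_filter_le _ _
        _ = Kf + 1 := Finset.card_range _
    have hf1 : 1 ≤ u (Kf + 1 - m) := by
      by_contra hcon2
      have hz : u (Kf + 1 - m) = 0 := by omega
      have hsub : Z ⊆ Finset.Ico (Kf + 2 - m) (Kf + 1) := by
        intro k hk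
        obtain ⟨h1, h2⟩ := Finset.mem_filter.1 hk
        have h1' := Finset.mem_range.1 h1
        rw [Finset.mem_Ico]
        refine ⟨?_, h1'⟩
        by_contra hcon3
        have hkm : k ≤ Kf + 1 - m := by omega
        have a1 := hvmono FA.F k (Kf + 1 - m) hkm (by omega)
        have a2 := hvmono FA.L1 k (Kf + 1 - m) hkm (by omega)
        have a3 := hvmono FA.L2 k (Kf + 1 - m) hkm (by omega)
        have h3 : u k ≤ u (Kf + 1 - m) := by
          show v (FA.F, k) + v (FA.L1, k) + v (FA.L2, k) ≤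
            v (FA.F, Kf + 1 - m) + v (FA.L1, Kf + 1 - m) + v (FA.L2, Kf + 1 - m)
          omega
        omega
      have h4 := Finset.card_le_card hsub
      rw [Nat.card_Ico] at h4
      omega
    set h' := ell - (Kf + 1 - m) with hh'
    have hDm : m = h' + x h + 1 := by omega
    have hlt : 2 * h + x h + 1 < h' := by omega
    have hh'ell : h' ≤ ell := Nat.sub_le _ _
    have hlev : ell - h' = Kf + 1 - m := by omega
    have hdropE : DropAt b E (ell - h') := by
      rw [hlev]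
      have h5 : ∃ X, 1 ≤ v (X, Kf + 1 - m) := by
        have h6 : 1 ≤ v (FA.F, Kf + 1 - m) + v (FA.L1, Kf + 1 - m) + v (FA.L2, Kf + 1 - m) := hf1
        by_cases c1 : 1 ≤ v (FA.F, Kf + 1 - m)
        · exact ⟨_, c1⟩
        by_cases c2 : 1 ≤ v (FA.L1, Kf + 1 - m)
        · exact ⟨_, c2⟩
        · exact ⟨FA.L2, by omega⟩
      obtain ⟨X, hX⟩ := h5
      exact ⟨X, fun e he => hX.trans
        (hbig.le _ (hmemJ X _ (by omega)) E (Finset.Subset.refl _) e he)⟩
    refine hmax h' (by omega) hh'ell ⟨E, hEA.trans hA, hEn, ?_, Or.inr hdropE⟩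
    calc E₀.card ≤ β ^ (2 * c * h) * A.card := hAc
      _ ≤ β ^ (2 * c * h) * (β ^ (∑ j ∈ J, v j) * E.card) := Nat.mul_le_mul_left _ hcard
      _ ≤ β ^ (2 * c * h) * (β ^ (c * m) * E.card) := by gcongr; omega
      _ = β ^ (2 * c * h + c * m) * E.card := by rw [pow_add]; ring
      _ ≤ β ^ (2 * c * h') * E.card := by
          refine Nat.mul_le_mul_right _ (Nat.pow_le_pow_right (by omega) ?_)
          rw [hDm]
          nlinarith
  refine ⟨h, hhle, E, hEA.trans hA, hEn, v, ?_, fun X k hk => hv _ (hmemJ X k hk), hbig, ?_⟩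
  · calc E₀.card ≤ β ^ (2 * c * h) * A.card := hAc
      _ ≤ β ^ (2 * c * h) * (β ^ (∑ j ∈ J, v j) * E.card) := Nat.mul_le_mul_left _ hcard
      _ = β ^ (2 * c * h + ∑ j ∈ J, v j) * E.card := by rw [pow_add]; ring
      _ ≤ β ^ (4 * c * h + 2 * c * (x h + 1)) * E.card := by
          refine Nat.mul_le_mul_right _ (Nat.pow_le_pow_right (by omega) ?_)
          have h1 : c * Z.card ≤ c * (2 * h + 2 * x h + 2) := Nat.mul_le_mul_left _ hZle
          nlinarith
  · intro hh1
    rcases hdrop with h1 | ⟨X, h1⟩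
    · omega
    · refine ⟨X, ?_⟩
      obtain ⟨e, he, h2⟩ := hv _ (hmemJ X (ell - h) (by omega))
      rw [h2]
      exact (h1 e (hEA he)).trans (cS_mono_set b _ hEA e)

end Vale.Agent.P054.T3.H461
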