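import Vale.Agent.P054.T3.H461.SA1
import Vale.Agent.P054.T2.H686.Glue

set_option autoImplicit false
set_option linter.unusedSectionVars false
set_option linter.unusedVariables false

/-!
# P054 / T3: section A

`sectionA`: from a set `E₀` of edges with `|Sg|² ≤ Λ₀ τ |E₀|` a subset `E` which is lossless uniform
for the families `F`, `L1`, `L2` at the levels `b ^ k`, `k ≤ ell + x`, `b ^ ell ≈ τ`,
`x = C₃ ⌊h / L⌋ + C₄`, where `h` is the distance of the first drop to `τ`; the loss of the density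
is `β ^ (C₀ h + C₁)`.
-/

namespace Vale.Agent.P054.T3.H461

open Finset MvPolynomial Module
open Vale.Agent.P054.T2.H307 (gfr gfr_mono_set gfr_le gr gr_mono gr_le fib mem_fib fib_unit
  fib_mono fib_subset self_mem_fib van van_mono mem_van pts mem_pts pts_mono pts_nonempty
  Ed xF xL)
open Vale.Agent.P054.T2.H580 (rkF hilbF IsFilt isFilt_total kap fib_eq)
open Vale.Agent.P054.T2.H686 (Crd Qf gpt upt rank_ineq slope_edge card_Crd pts_eq_image)
open Vale.Agent.P054.T2.SecC (ZZ)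
open Vale.Agent.P054.T2.H441 (rkY)

/-- the loss of (LO) at the density `1/β` -/
def X0 (n L : ℕ) : ℕ := loA (2 * n + 1) L * 1 + loC (2 * n + 1) L 0

/-- the constant of the number of levels above `ell`; `R` = reserve of tight levels -/
def CA4 (n L R : ℕ) : ℕ := 8 * (4 * n + 1) + 2 * (R + X0 n L + 2) + 1

/-- the number of levels above `ell` -/
def xA (n L R h : ℕ) : ℕ := 8 * (4 * n + 1) * (h / L) + CA4 n L R

/-- the lower bound for `β` -/
def βA (n Λ₀ : ℕ) : ℕ := 8 * Λ₀ * ((2 * (n + 1)) ^ n) ^ 2 + bmin (2 * n + 1) + bmin n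

theorem loss_le {n L R h : ℕ} (hL : 8 * (4 * n + 1) ≤ L) :
    4 * (4 * n + 1) * h + 2 * (4 * n + 1) * (xA n L R h + 1) ≤
      L * (xA n L R h - (R + X0 n L + 2)) := by
  have hL0 : 0 < L := by omega
  unfold xA CA4
  set q := h / L with hq
  set r := R + X0 n L + 2 with hr
  have h1 : h ≤ L * q + L := by
    have h3 : h < L * (h / L + 1) := Nat.lt_mul_div_succ h hL0
    rw [← hq, Nat.mul_add, mul_one] at h3
    omega
  set c := 4 * n + 1 with hc
  have h2 : 8 * c * q + (8 * c + 2 * r + 1) - r = 8 * c * q + 8 * c + r + 1 := by omega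
  rw [h2]
  have e1 : 4 * c * h ≤ 4 * c * (L * q + L) := Nat.mul_le_mul_left _ h1
  have e2 : 2 * c * (8 * c * q) ≤ 2 * c * (L * q) :=
    Nat.mul_le_mul_left _ (Nat.mul_le_mul_right _ hL)
  have e3 : 2 * c * (8 * c) ≤ 2 * c * L := Nat.mul_le_mul_left _ hL
  have e4 : 4 * c * (r + 1) ≤ L * (r + 1) := Nat.mul_le_mul_right _ (by omega)
  calc 4 * c * h + 2 * c * (8 * c * q + (8 * c + 2 * r + 1) + 1)
      = 4 * c * h + 2 * c * (8 * c * q) + 2 * c * (8 * c) + 4 * c * (r + 1) := by ring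
    _ ≤ 4 * c * (L * q + L) + 2 * c * (L * q) + 2 * c * L + L * (r + 1) := by omega
    _ = 6 * c * (L * q) + 6 * c * L + L * (r + 1) := by ring
    _ ≤ 8 * c * (L * q) + 8 * c * L + L * (r + 1) := by
        have a1 : 6 * c * (L * q) ≤ 8 * c * (L * q) := Nat.mul_le_mul_right _ (by omega)
        have a2 : 6 * c * L ≤ 8 * c * L := Nat.mul_le_mul_right _ (by omega)
        omega
    _ = L * (8 * c * q + 8 * c + r + 1) := by ring

theorem loss_le' {n L R h : ℕ} (hL : 8 * (4 * n + 1) ≤ L) :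
    4 * (4 * n + 1) * h + 2 * (4 * n + 1) * (xA n L R h + 1) ≤
      6 * (4 * n + 1) * h + 2 * (4 * n + 1) * (CA4 n L R + 1) := by
  have h1 : 8 * (4 * n + 1) * (h / L) ≤ h :=
    (Nat.mul_le_mul_right _ hL).trans (Nat.mul_div_le h L)
  unfold xA
  have h2 : 2 * (4 * n + 1) * (8 * (4 * n + 1) * (h / L)) ≤ 2 * (4 * n + 1) * h :=
    Nat.mul_le_mul_left _ h1
  nlinarith

/-- `x ≤ h / 6 + C₄` if `L ≥ 48 (4 n + 1)` -/
theorem xA_le {n L R h : ℕ} (hL : 48 * (4 * n + 1) ≤ L) : xA n L R h ≤ h / 6 + CA4 n L R := by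
  unfold xA
  refine Nat.add_le_add_right ?_ _
  rw [Nat.le_div_iff_mul_le (by norm_num)]
  calc 8 * (4 * n + 1) * (h / L) * 6 = 48 * (4 * n + 1) * (h / L) := by ring
    _ ≤ L * (h / L) := Nat.mul_le_mul_right _ hL
    _ ≤ h := Nat.mul_div_le h L

/-- `L x ≤ 8 c h + L C₄` -/
theorem L_xA_le (n L R h : ℕ) : L * xA n L R h ≤ 8 * (4 * n + 1) * h + L * CA4 n L R := by
  unfold xA
  have h1 : L * (h / L) ≤ h := Nat.mul_div_le h L
  calc L * (8 * (4 * n + 1) * (h / L) + CA4 n L R)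
      = 8 * (4 * n + 1) * (L * (h / L)) + L * CA4 n L R := by ring
    _ ≤ _ := Nat.add_le_add_right (Nat.mul_le_mul_left _ h1) _

variable {n : ℕ}

theorem gfr_L1_eq [DecidableEq (ZZ n)] (b i : ℕ) (A : Finset (ZZ n × ZZ n)) (e : ZZ n × ZZ n) :
    gfr (xL : Ed n ℝ → _) Prod.fst (restrictTotalDegree (Fin n) ℝ) (b ^ i) A e =
      gr (upt (id : ZZ n → ZZ n)) (A.filter fun x => x.1 = e.1)
      (restrictTotalDegree (Fin n) ℝ (b ^ i)) (upt (id : ZZ n → ZZ n) e) := by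
  have h1 : gfr (xL : Ed n ℝ → _) Prod.fst (restrictTotalDegree (Fin n) ℝ) (b ^ i) A e =
    gr (xL : Ed n ℝ → _) (fib Prod.fst A e.1) (restrictTotalDegree (Fin n) ℝ (b ^ i)) (xL e) := rfl
  rw [h1, fib_eq]
  rfl

theorem gfr_L2_eq [DecidableEq (ZZ n)] (b i : ℕ) (A : Finset (ZZ n × ZZ n)) (e : ZZ n × ZZ n) :
    gfr (xL : Ed n ℝ → _) Prod.snd (restrictTotalDegree (Fin n) ℝ) (b ^ i) A e =
      gr (upt (id : ZZ n → ZZ n)) (A.filter fun x => x.2 = e.2)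
      (restrictTotalDegree (Fin n) ℝ (b ^ i)) (upt (id : ZZ n → ZZ n) e) := by
  have h1 : gfr (xL : Ed n ℝ → _) Prod.snd (restrictTotalDegree (Fin n) ℝ) (b ^ i) A e =
    gr (xL : Ed n ℝ → _) (fib Prod.snd A e.2) (restrictTotalDegree (Fin n) ℝ (b ^ i)) (xL e) := rfl
  rw [h1, fib_eq]
  rfl

theorem gfr_F_eq (b i : ℕ) (A : Finset (ZZ n × ZZ n)) (e : ZZ n × ZZ n) :
    gfr (xF : Ed n ℝ → _) (fun _ => ()) (restrictTotalDegree (Crd n) ℝ) (b ^ i) A e =
      gr (gpt (id : ZZ n → ZZ n)) A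
      (restrictTotalDegree (Crd n) ℝ (b ^ i)) (gpt (id : ZZ n → ZZ n) e) := by
  have h2 : fib (fun _ : ZZ n × ZZ n => ()) A () = A := fib_unit A ()
  have h1 : gfr (xF : Ed n ℝ → _) (fun _ => ()) (restrictTotalDegree (Crd n) ℝ) (b ^ i) A e =
    gr (xF : Ed n ℝ → _) (fib (fun _ => ()) A ()) (restrictTotalDegree (Crd n) ℝ (b ^ i))
      (xF e) := rfl
  rw [h1, h2]
  rfl

/-- **gap inequality at every level** of a maximiser -/
theorem slope_fam {b β K : ℕ} (hβ : 3 ≤ β) {E : Finset (ZZ n × ZZ n)} (hE : E.Nonempty)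
    (h0 : ∀ e ∈ E, e.1.1 0 ≠ e.2.1 0) (hq : ∀ e ∈ E, Qf (e.1 - e.2) = 0) {vF v1 v2 : ℕ → ℕ}
    (hF : FamU (xF (n := n) (K := ℝ)) (fun _ => ()) b β 0 K E vF)
    (h1 : FamU (xL (n := n) (K := ℝ)) Prod.fst b β 0 K E v1)
    (h2 : FamU (xL (n := n) (K := ℝ)) Prod.snd b β 0 K E v2) {k : ℕ} (hk : k ≤ K) :
    (n - v1 k) + (n - v2 k) ≤ (2 * n + 1) - vF k := by
  classical
  set B1 := E.filter (fun e => v1 k <
    gfr (xL : Ed n ℝ → _) Prod.fst (restrictTotalDegree (Fin n) ℝ) (b ^ k) E e) with hB1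
  set B2 := E.filter (fun e => v2 k <
    gfr (xL : Ed n ℝ → _) Prod.snd (restrictTotalDegree (Fin n) ℝ) (b ^ k) E e) with hB2
  have hr : ∀ v : ℕ → ℕ, 1 ≤ rem K v k := fun v => by
    have := rem_ge (K₀ := K) (v := v) (i := k) (en := k + 1) (by omega)
      (fun l hl hl' => by rw [show l = k by omega])
    omega
  have s1 : β * B1.card ≤ E.card := by
    have h3 := h1.small k hk B1 (Finset.filter_subset _ _) (fun e he =>
      lt_of_lt_of_le (Finset.mem_filter.1 he).2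
        (gfr_mono_set _ _ _ _ (Finset.filter_subset _ _) e))
    rw [pow_zero, one_mul] at h3
    exact (Nat.mul_le_mul_right _ (Nat.le_self_pow (by have := hr v1; omega) β)).trans h3
  have s2 : β * B2.card ≤ E.card := by
    have h3 := h2.small k hk B2 (Finset.filter_subset _ _) (fun e he =>
      lt_of_lt_of_le (Finset.mem_filter.1 he).2
        (gfr_mono_set _ _ _ _ (Finset.filter_subset _ _) e))
    rw [pow_zero, one_mul] at h3
    exact (Nat.mul_le_mul_right _ (Nat.le_self_pow (by have := hr v2; omega) β)).trans h3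
  have hEpos := hE.card_pos
  obtain ⟨e, he, hne⟩ : ∃ e ∈ E, e ∉ B1 ∪ B2 := by
    by_contra hcon
    push Not at hcon
    have h3 : E ⊆ B1 ∪ B2 := hcon
    have h4 := Finset.card_le_card h3
    have h5 := Finset.card_union_le B1 B2
    have h6 : β * E.card ≤ 2 * E.card := by
      calc β * E.card ≤ β * (B1.card + B2.card) := Nat.mul_le_mul_left _ (h4.trans h5)
        _ = β * B1.card + β * B2.card := by ring
        _ ≤ _ := by omega
    have h7 : 3 * E.card ≤ β * E.card := Nat.mul_le_mul_right _ hβ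
    omega
  rw [Finset.mem_union, not_or] at hne
  have g1 : gfr (xL : Ed n ℝ → _) Prod.fst (restrictTotalDegree (Fin n) ℝ) (b ^ k) E e ≤ v1 k := by
    by_contra hc
    exact hne.1 (Finset.mem_filter.2 ⟨he, by omega⟩)
  have g2 : gfr (xL : Ed n ℝ → _) Prod.snd (restrictTotalDegree (Fin n) ℝ) (b ^ k) E e ≤ v2 k := by
    by_contra hc
    exact hne.2 (Finset.mem_filter.2 ⟨he, by omega⟩)
  have gF := hF.le k hk E (Finset.Subset.refl _) e he
  rw [gfr_L1_eq] at g1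
  rw [gfr_L2_eq] at g2
  rw [gfr_F_eq] at gF
  have h3 := slope_edge (id : ZZ n → ZZ n) E h0 hq (b ^ k) he
  omega

/-- **the rank inequality** for the lossless families -/
theorem rank_fam {b β L K Λ : ℕ} (hbβ : b = β ^ L) (hβ : 2 ≤ β)
    (hb : bmin (2 * n + 1) ≤ b) {E : Finset (ZZ n × ZZ n)} (hE : E.Nonempty)
    (h0 : ∀ e ∈ E, e.1.1 0 ≠ e.2.1 0) (hq : ∀ e ∈ E, Qf (e.1 - e.2) = 0) (Sg : Finset (ZZ n))
    (hS1 : ∀ e ∈ E, e.1 ∈ Sg) (hS2 : ∀ e ∈ E, e.2 ∈ Sg) (hΛ : Sg.card ^ 2 ≤ Λ * E.card)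
    {vF v1 v2 : ℕ → ℕ}
    (hF : FamU (xF (n := n) (K := ℝ)) (fun _ => ()) b β 0 K E vF)
    (h1 : FamU (xL (n := n) (K := ℝ)) Prod.fst b β 0 K E v1)
    (h2 : FamU (xL (n := n) (K := ℝ)) Prod.snd b β 0 K E v2) :
    b ^ (∑ k ∈ range K, ((2 * n + 1) - vF k)) ≤
      b ^ X0 n L * (8 * Λ * ((2 * (n + 1)) ^ n) ^ 2) *
        b ^ (∑ k ∈ range K, ((n - v1 k) + (n - v2 k))) := by
  classical
  have hcN : Fintype.card (Crd n) = 2 * n + 1 := card_Crd n
  have hbN := bmin_ge (2 * n + 1)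
  refine rank_ineq (id : ZZ n → ZZ n) Sg E hS1 hS2 hE h0 hq b K (b ^ X0 n L) Λ (by omega) hΛ
    vF v1 v2 (fun k l hkl hl => h1.mono k l hkl hl.le) (fun k l hkl hl => h2.mono k l hkl hl.le)
    ?_ ?_ ?_
  · intro k hk e he
    have h3 := h1.le k hk.le E (Finset.Subset.refl _) e he
    rwa [gfr_L1_eq] at h3
  · intro k hk e he
    have h3 := h2.le k hk.le E (Finset.Subset.refl _) e he
    rwa [gfr_L2_eq] at h3
  · intro A hA hAc
    have hAn : A.Nonempty := by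
      rw [← Finset.card_pos]
      have := hE.card_pos
      omega
    obtain ⟨e, he, h3⟩ := lo_all hbβ hβ (by rw [hcN]; exact hb) hF hE K le_rfl 1 A hA hAn
      (by rw [pow_one]; exact hAc.trans (Nat.mul_le_mul_right _ hβ))
    rw [hcN] at h3
    refine h3.trans (le_of_eq ?_)
    rw [fib_unit, pts_eq_image]
    rfl

/-- **SECTION A.** -/
theorem sectionA {n L R Λ₀ β τ ell : ℕ} (hL : 8 * (4 * n + 1) ≤ L) (hβ : βA n Λ₀ ≤ β)
    (hell : τ ≤ (β ^ L) ^ (ell + 1)) (Sg : Finset (ZZ n)) (E₀ : Finset (Ed n ℝ))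
    (hE₀ : E₀.Nonempty) (hS1 : ∀ e ∈ E₀, e.1 ∈ Sg) (hS2 : ∀ e ∈ E₀, e.2 ∈ Sg)
    (hadj : ∀ e ∈ E₀, e.1.1 0 ≠ e.2.1 0 ∧ Qf (e.1 - e.2) = 0)
    (hΛ : Sg.card ^ 2 ≤ Λ₀ * τ * E₀.card) :
    ∃ h ≤ ell, ∃ E ⊆ E₀, ∃ vF v1 v2 : ℕ → ℕ, E.Nonempty ∧
      E₀.card ≤ β ^ (6 * (4 * n + 1) * h + 2 * (4 * n + 1) * (CA4 n L R + 1)) * E.card ∧
      FamU (xF (n := n) (K := ℝ)) (fun _ => ()) (β ^ L) β 0 (ell + xA n L R h) E vF ∧
      FamU (xL (n := n) (K := ℝ)) Prod.fst (β ^ L) β 0 (ell + xA n L R h) E v1 ∧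
      FamU (xL (n := n) (K := ℝ)) Prod.snd (β ^ L) β 0 (ell + xA n L R h) E v2 ∧
      Lev n (ell + xA n L R h) R vF v1 v2 ∧
      (1 ≤ h → 1 ≤ vF (ell - h) ∨ 1 ≤ v1 (ell - h) ∨ 1 ≤ v2 (ell - h)) := by
  classical
  have hbN := bmin_ge (2 * n + 1)
  have hβ' : 8 * Λ₀ * ((2 * (n + 1)) ^ n) ^ 2 + bmin (2 * n + 1) + bmin n ≤ β := hβ
  have hβ3 : 3 ≤ β := by omega
  have hβ1 : 1 ≤ β := by omega
  have hL0 : L ≠ 0 := by omega
  set b := β ^ L with hb
  have hbβ : β ≤ b := Nat.le_self_pow hL0 _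
  have hb1 : 1 ≤ b := by omega
  obtain ⟨h, hh, E, hEE, hEn, v, hc, hv, hbig, hfirst⟩ :=
    exists_first b β ell hb1 (by omega) E₀ hE₀ (xA n L R)
  set Kf := ell + xA n L R h with hKf
  have hmemJ : ∀ X : FA, ∀ k ≤ Kf, (X, k) ∈ (univ : Finset FA) ×ˢ range (Kf + 1) :=
    fun X k hk => by
      rw [Finset.mem_product]
      exact ⟨Finset.mem_univ _, Finset.mem_range.2 (by omega)⟩
  have hmono : ∀ X : FA, ∀ k l : ℕ, k ≤ l → l ≤ Kf → v (X, k) ≤ v (X, l) := by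
    intro X k l hkl hl
    obtain ⟨e, he, h1⟩ := hv X l hl
    rw [h1]
    exact (hbig.le _ (hmemJ X k (hkl.trans hl)) E (Finset.Subset.refl _) e he).trans
      (cS_mono_lev hb1 X hkl E e)
  have hle : ∀ X, ∀ k ≤ Kf, v (X, k) ≤ dS n X := fun X k hk => by
    obtain ⟨e, he, h1⟩ := hv X k hk
    rw [h1]
    exact cS_le _ _ _ _ _
  have hinj : ∀ X : FA, Function.Injective (fun k : ℕ => (X, k)) := fun X k l hkl =>
    (Prod.ext_iff.1 hkl).2
  have hF : FamU (xF (n := n) (K := ℝ)) (fun _ => ()) b β 0 Kf E (fun k => v (FA.F, k)) :=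
    FamU.of_big hbig hEn (by omega) hb1 (hinj FA.F) (hmemJ FA.F) (fun l _ A e => rfl)
      (hmono FA.F)
  have h1 : FamU (xL (n := n) (K := ℝ)) Prod.fst b β 0 Kf E (fun k => v (FA.L1, k)) :=
    FamU.of_big hbig hEn (by omega) hb1 (hinj FA.L1) (hmemJ FA.L1) (fun l _ A e => rfl)
      (hmono FA.L1)
  have h2 : FamU (xL (n := n) (K := ℝ)) Prod.snd b β 0 Kf E (fun k => v (FA.L2, k)) :=
    FamU.of_big hbig hEn (by omega) hb1 (hinj FA.L2) (hmemJ FA.L2) (fun l _ A e => rfl)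
      (hmono FA.L2)
  have hslope : ∀ k ≤ Kf, (n - v (FA.L1, k)) + (n - v (FA.L2, k)) ≤ (2 * n + 1) - v (FA.F, k) :=
    fun k hk => slope_fam hβ3 hEn (fun e he => (hadj e (hEE he)).1)
      (fun e he => (hadj e (hEE he)).2) hF h1 h2 hk
  refine ⟨h, hh, E, hEE, fun k => v (FA.F, k), fun k => v (FA.L1, k), fun k => v (FA.L2, k), hEn,
    hc.trans (Nat.mul_le_mul_right _ (Nat.pow_le_pow_right hβ1 (loss_le' hL))), hF, h1, h2,
    ?_, ?_⟩
  · refine ⟨hmono FA.F, hmono FA.L1, hmono FA.L2, hle FA.F, hle FA.L1, hle FA.L2, hslope, ?_⟩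
    set Y := xA n L R h - (R + X0 n L + 2) with hY
    have hRx : R + X0 n L + 2 ≤ xA n L R h := by unfold xA CA4; omega
    set loss := 4 * (4 * n + 1) * h + 2 * (4 * n + 1) * (xA n L R h + 1) with hloss
    have hlY : β ^ loss ≤ b ^ Y := by
      rw [hb, ← pow_mul]
      exact Nat.pow_le_pow_right hβ1 (loss_le hL)
    have hΛ' : Sg.card ^ 2 ≤ (Λ₀ * τ * b ^ Y) * E.card := by
      calc Sg.card ^ 2 ≤ Λ₀ * τ * E₀.card := hΛ
        _ ≤ Λ₀ * τ * (b ^ Y * E.card) :=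
            Nat.mul_le_mul_left _ (hc.trans (Nat.mul_le_mul_right _ hlY))
        _ = _ := by ring
    have hr := rank_fam (Λ := Λ₀ * τ * b ^ Y) hb (by omega) (show bmin (2 * n + 1) ≤ b by omega)
      hEn (fun e he => (hadj e (hEE he)).1) (fun e he => (hadj e (hEE he)).2) Sg
      (fun e he => hS1 e (hEE he)) (fun e he => hS2 e (hEE he)) hΛ' hF h1 h2
    set SF := ∑ k ∈ range Kf, ((2 * n + 1) - v (FA.F, k)) with hSF
    set S12 := ∑ k ∈ range Kf, ((n - v (FA.L1, k)) + (n - v (FA.L2, k))) with hS12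
    have hr2 : b ^ SF ≤ b ^ (X0 n L + (1 + (ell + 1) + Y) + S12) := by
      refine hr.trans ?_
      have e1 : 8 * (Λ₀ * τ * b ^ Y) * ((2 * (n + 1)) ^ n) ^ 2 ≤ b ^ (1 + (ell + 1) + Y) := by
        calc 8 * (Λ₀ * τ * b ^ Y) * ((2 * (n + 1)) ^ n) ^ 2
            = (8 * Λ₀ * ((2 * (n + 1)) ^ n) ^ 2) * τ * b ^ Y := by ring
          _ ≤ b * b ^ (ell + 1) * b ^ Y := by
              refine Nat.mul_le_mul_right _ (Nat.mul_le_mul ?_ hell)
              omega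
          _ = _ := by rw [pow_add b (1 + (ell + 1)) Y, pow_add b 1 (ell + 1), pow_one]
      calc b ^ X0 n L * (8 * (Λ₀ * τ * b ^ Y) * ((2 * (n + 1)) ^ n) ^ 2) * b ^ S12
          ≤ b ^ X0 n L * b ^ (1 + (ell + 1) + Y) * b ^ S12 :=
            Nat.mul_le_mul_right _ (Nat.mul_le_mul_left _ e1)
        _ = _ := by
            rw [pow_add b (X0 n L + (1 + (ell + 1) + Y)) S12,
              pow_add b (X0 n L) (1 + (ell + 1) + Y)]
    have hr3 : SF ≤ X0 n L + (1 + (ell + 1) + Y) + S12 :=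
      (Nat.pow_le_pow_iff_right (by omega)).1 hr2
    have hsum : ∑ k ∈ range Kf, (((2 * n + 1) - v (FA.F, k)) -
        ((n - v (FA.L1, k)) + (n - v (FA.L2, k)))) + S12 = SF := by
      rw [hS12, hSF, ← Finset.sum_add_distrib]
      refine Finset.sum_congr rfl fun k hk => ?_
      have := hslope k (Finset.mem_range.1 hk).le
      omega
    show ∑ k ∈ range Kf, (((2 * n + 1) - v (FA.F, k)) -
        ((n - v (FA.L1, k)) + (n - v (FA.L2, k)))) + R ≤ Kf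
    omega
  · intro hh1
    obtain ⟨X, hX⟩ := hfirst hh1
    cases X
    · exact Or.inl hX
    · exact Or.inr (Or.inl hX)
    · exact Or.inr (Or.inr hX)

end Vale.Agent.P054.T3.H461
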