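import Vale.Agent.P054.T3.H461.SA2

set_option autoImplicit false
set_option linter.unusedSectionVars false
set_option linter.unusedVariables false

/-!
# P054 / T3: section A, bipartite form: `|Sg₁| |Sg₂| ≤ Λ₀ τ |E₀|`
-/

namespace Vale.Agent.P054.T3.H461

open Finset MvPolynomial Module
open Vale.Agent.P054.T2.H307 (gfr gfr_mono_set gfr_le gr gr_mono gr_le fib mem_fib fib_unit
  fib_mono fib_subset self_mem_fib van van_mono mem_van pts mem_pts pts_mono pts_nonempty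
  Ed xF xL)
open Vale.Agent.P054.T2.H580 (rk evd rkF hilbF IsFilt isFilt_total kap fib_eq)
open Vale.Agent.P054.T2.H686 (Crd Qf gpt upt rank_ineq slope_edge card_Crd pts_eq_image
  contagion_set rk_leaf_le gpt_eq_fst gpt_eq_snd rk_evd_eq_rkY rkY_upper)
open Vale.Agent.P054.T2.SecC (ZZ)
open Vale.Agent.P054.T2.H441 (rkY)

section bi

variable {K : Type*} [Field K] {n : ℕ} {S : Type*}
  (z : S → (Fin (n + 1) → K) × (Fin (n + 1) → K))

/-- contagion on the real edges, bipartite -/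
theorem contagion_edges_bi [DecidableEq S] [DecidableEq (Fin n → K)] [DecidableEq (Crd n → K)]
    (Sg₁ Sg₂ : Finset S)
    (E : Finset (S × S)) (hS1 : ∀ e ∈ E, e.1 ∈ Sg₁) (hS2 : ∀ e ∈ E, e.2 ∈ Sg₂)
    (h0 : ∀ e ∈ E, (z e.1).1 0 ≠ (z e.2).1 0)
    (hq : ∀ e ∈ E, Qf (z e.1 - z e.2) = 0) (T w₁ w₂ : ℕ)
    (h1 : ∀ s ∈ Sg₁, rkY ((E.filter fun e => e.1 = s).image (upt z)) T ≤ w₁)
    (h2 : ∀ r ∈ Sg₂, rkY ((E.filter fun e => e.2 = r).image (upt z)) T ≤ w₂) :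
    ∃ E' ⊆ E, E.card ≤ 2 * E'.card ∧
      E.card * rkY (E'.image (gpt z)) T ≤ 8 * (Sg₁.card * Sg₂.card * (w₁ * w₂)) := by
  have hi1 : E.image Prod.fst ⊆ Sg₁ := by
    intro s hs
    obtain ⟨e, he, rfl⟩ := Finset.mem_image.1 hs
    exact hS1 e he
  have hi2 : E.image Prod.snd ⊆ Sg₂ := by
    intro s hs
    obtain ⟨e, he, rfl⟩ := Finset.mem_image.1 hs
    exact hS2 e he
  obtain ⟨E', hE', hc, hr⟩ := contagion_set (K := K) Sg₂ (fun e => evd T (gpt z e)) E hS2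
    (Sg₁.card * w₁) (Sg₂.card * w₂)
    (by
      calc ∑ s ∈ E.image Prod.fst, rk K (fun e => evd T (gpt z e)) (E.filter fun e => e.1 = s)
          ≤ ∑ _s ∈ E.image Prod.fst, w₁ := by
            refine Finset.sum_le_sum fun s hs => ?_
            refine (rk_leaf_le (z s) (gpt z) (upt z) _ ?_ T).trans ?_
            · intro e he
              rw [gpt_eq_fst, (Finset.mem_filter.1 he).2]
            · rw [rk_evd_eq_rkY]
              exact h1 s (hi1 hs)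
        _ = (E.image Prod.fst).card * w₁ := by rw [Finset.sum_const, smul_eq_mul]
        _ ≤ _ := Nat.mul_le_mul_right _ (Finset.card_le_card hi1))
    (by
      calc ∑ r ∈ E.image Prod.snd, rk K (fun e => evd T (gpt z e)) (E.filter fun e => e.2 = r)
          ≤ ∑ _r ∈ E.image Prod.snd, w₂ := by
            refine Finset.sum_le_sum fun r hr => ?_
            refine (rk_leaf_le (z r) (gpt z) (upt z) _ ?_ T).trans ?_
            · intro e he
              obtain ⟨heE, he2⟩ := Finset.mem_filter.1 he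
              rw [gpt_eq_snd z (h0 e heE) (hq e heE), he2]
            · rw [rk_evd_eq_rkY]
              exact h2 r (hi2 hr)
        _ = (E.image Prod.snd).card * w₂ := by rw [Finset.sum_const, smul_eq_mul]
        _ ≤ _ := Nat.mul_le_mul_right _ (Finset.card_le_card hi2))
  refine ⟨E', hE', hc, ?_⟩
  rw [← rk_evd_eq_rkY (gpt z) E']
  refine hr.trans (le_of_eq ?_)
  ring

/-- rank inequality of section A, bipartite -/
theorem rank_ineq_bi [Infinite K] [DecidableEq S] [DecidableEq (Fin n → K)]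
    [DecidableEq (Crd n → K)] (Sg₁ Sg₂ : Finset S)
    (E : Finset (S × S)) (hS1 : ∀ e ∈ E, e.1 ∈ Sg₁) (hS2 : ∀ e ∈ E, e.2 ∈ Sg₂) (hE : E.Nonempty)
    (h0 : ∀ e ∈ E, (z e.1).1 0 ≠ (z e.2).1 0)
    (hq : ∀ e ∈ E, Qf (z e.1 - z e.2) = 0) (b K' c₀ Λ : ℕ) (hb : 1 ≤ b)
    (hΛ : Sg₁.card * Sg₂.card ≤ Λ * E.card) (vF v1 v2 : ℕ → ℕ)
    (hv1 : ∀ k l : ℕ, k ≤ l → l < K' → v1 k ≤ v1 l)
    (hv2 : ∀ k l : ℕ, k ≤ l → l < K' → v2 k ≤ v2 l)
    (hgr1 : ∀ k < K', ∀ e ∈ E, v1 k ≤ gr (upt z) (E.filter fun x => x.1 = e.1)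
      (restrictTotalDegree (Fin n) K (b ^ k)) (upt z e))
    (hgr2 : ∀ k < K', ∀ e ∈ E, v2 k ≤ gr (upt z) (E.filter fun x => x.2 = e.2)
      (restrictTotalDegree (Fin n) K (b ^ k)) (upt z e))
    (hLO : ∀ A ⊆ E, E.card ≤ 2 * A.card →
      b ^ (∑ k ∈ range K', ((2 * n + 1) - vF k)) ≤ c₀ * rkY (A.image (gpt z)) (b ^ K')) :
    b ^ (∑ k ∈ range K', ((2 * n + 1) - vF k)) ≤
      c₀ * (8 * Λ * ((2 * (n + 1)) ^ n) ^ 2) *
        b ^ (∑ k ∈ range K', ((n - v1 k) + (n - v2 k))) := by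
  classical
  have hN : Fintype.card (Fin n) = n := Fintype.card_fin n
  obtain ⟨e₀, he₀⟩ := hE
  have hb1 : ∀ k < K', v1 k ≤ n := fun k hk => by
    have h := (hgr1 k hk e₀ he₀).trans (gr_le _ _ _ _)
    rwa [hN] at h
  have hb2 : ∀ k < K', v2 k ≤ n := fun k hk => by
    have h := (hgr2 k hk e₀ he₀).trans (gr_le _ _ _ _)
    rwa [hN] at h
  obtain ⟨E', hE', hc, hr⟩ := contagion_edges_bi z Sg₁ Sg₂ E hS1 hS2 h0 hq (b ^ K')
    ((2 * (n + 1)) ^ n * b ^ (∑ k ∈ range K', (n - v1 k)))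
    ((2 * (n + 1)) ^ n * b ^ (∑ k ∈ range K', (n - v2 k)))
    (by
      intro s _
      have h := rkY_upper (upt z) (E.filter fun e => e.1 = s) b hb K' v1 hv1
        (by rw [hN]; exact hb1)
        (by
          intro k hk e he
          obtain ⟨he1, he2⟩ := Finset.mem_filter.1 he
          have := hgr1 k hk e he1
          rwa [he2] at this)
      rwa [hN] at h)
    (by
      intro r _
      have h := rkY_upper (upt z) (E.filter fun e => e.2 = r) b hb K' v2 hv2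
        (by rw [hN]; exact hb2)
        (by
          intro k hk e he
          obtain ⟨he1, he2⟩ := Finset.mem_filter.1 he
          have := hgr2 k hk e he1
          rwa [he2] at this)
      rwa [hN] at h)
  have hEpos : 0 < E.card := Finset.card_pos.2 ⟨e₀, he₀⟩
  set c₁ := (2 * (n + 1)) ^ n with hc₁
  set s₁ := ∑ k ∈ range K', (n - v1 k) with hs₁
  set s₂ := ∑ k ∈ range K', (n - v2 k) with hs₂
  have hrk : rkY (E'.image (gpt z)) (b ^ K') ≤ 8 * Λ * c₁ ^ 2 * b ^ (s₁ + s₂) := by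
    refine Nat.le_of_mul_le_mul_left (hr.trans ?_) hEpos
    calc 8 * (Sg₁.card * Sg₂.card * (c₁ * b ^ s₁ * (c₁ * b ^ s₂)))
        = Sg₁.card * Sg₂.card * (8 * c₁ ^ 2 * b ^ (s₁ + s₂)) := by rw [pow_add]; ring
      _ ≤ (Λ * E.card) * (8 * c₁ ^ 2 * b ^ (s₁ + s₂)) := Nat.mul_le_mul_right _ hΛ
      _ = E.card * (8 * Λ * c₁ ^ 2 * b ^ (s₁ + s₂)) := by ring
  have hsum : ∑ k ∈ range K', ((n - v1 k) + (n - v2 k)) = s₁ + s₂ := Finset.sum_add_distrib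
  rw [hsum]
  calc b ^ (∑ k ∈ range K', ((2 * n + 1) - vF k)) ≤ c₀ * rkY (E'.image (gpt z)) (b ^ K') :=
        hLO E' hE' hc
    _ ≤ c₀ * (8 * Λ * c₁ ^ 2 * b ^ (s₁ + s₂)) := Nat.mul_le_mul_left _ hrk
    _ = _ := by ring

end bi

variable {n : ℕ}

/-- **the rank inequality** for the lossless families -/
theorem rank_fam_bi {b β L K Λ : ℕ} (hbβ : b = β ^ L) (hβ : 2 ≤ β)
    (hb : bmin (2 * n + 1) ≤ b) {E : Finset (ZZ n × ZZ n)} (hE : E.Nonempty)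
    (h0 : ∀ e ∈ E, e.1.1 0 ≠ e.2.1 0) (hq : ∀ e ∈ E, Qf (e.1 - e.2) = 0) (Sg₁ Sg₂ : Finset (ZZ n))
    (hS1 : ∀ e ∈ E, e.1 ∈ Sg₁) (hS2 : ∀ e ∈ E, e.2 ∈ Sg₂)
    (hΛ : Sg₁.card * Sg₂.card ≤ Λ * E.card)
    {vF v1 v2 : ℕ → ℕ}
    (hF : FamU (xF (n := n) (K := ℝ)) (fun _ => ()) b β 0 K E vF)
    (h1 : FamU (xL (n := n) (K := ℝ)) Prod.fst b β 0 K E v1)
    (h2 : FamU (xL (n := n) (K := ℝ)) Prod.snd b β 0 K E v2) :
    b ^ (∑ k ∈ range K, ((2 * n + 1) - vF k)) ≤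
      b ^ X0 n L * (8 * Λ * ((2 * (n + 1)) ^ n) ^ 2) *
        b ^ (∑ k ∈ range K, ((n - v1 k) + (n - v2 k))) := by
  classical
  have hcN : Fintype.card (Crd n) = 2 * n + 1 := card_Crd n
  have hbN := bmin_ge (2 * n + 1)
  refine rank_ineq_bi (id : ZZ n → ZZ n) Sg₁ Sg₂ E hS1 hS2 hE h0 hq b K (b ^ X0 n L) Λ (by omega) hΛ
    vF v1 v2 (fun k l hkl hl => h1.mono k l hkl hl.le) (fun k l hkl hl => h2.mono k l hkl hl.le)
    ?_ ?_ ?_
  · intro k hk e he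
    have h3 := h1.le k hk.le E (Finset.Subset.refl _) e he
    rwa [gfr_L1_eq] at h3
  · intro k hk e he
    have h3 := h2.le k hk.le E (Finset.Subset.refl _) e he
    rwa [gfr_L2_eq] at h3
  · intro A hA hAc
    have hAn : A.Nonempty := by
      rw [← Finset.card_pos]
      have := hE.card_pos
      omega
    obtain ⟨e, he, h3⟩ := lo_all hbβ hβ (by rw [hcN]; exact hb) hF hE K le_rfl 1 A hA hAn
      (by rw [pow_one]; exact hAc.trans (Nat.mul_le_mul_right _ hβ))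
    rw [hcN] at h3
    refine h3.trans (le_of_eq ?_)
    rw [fib_unit, pts_eq_image]
    rfl

/-- **SECTION A.** -/
theorem sectionA_bi {n L R Λ₀ β τ ell : ℕ} (hL : 8 * (4 * n + 1) ≤ L) (hβ : βA n Λ₀ ≤ β)
    (hell : τ ≤ (β ^ L) ^ (ell + 1)) (Sg₁ Sg₂ : Finset (ZZ n)) (E₀ : Finset (Ed n ℝ))
    (hE₀ : E₀.Nonempty) (hS1 : ∀ e ∈ E₀, e.1 ∈ Sg₁) (hS2 : ∀ e ∈ E₀, e.2 ∈ Sg₂)
    (hadj : ∀ e ∈ E₀, e.1.1 0 ≠ e.2.1 0 ∧ Qf (e.1 - e.2) = 0)
    (hΛ : Sg₁.card * Sg₂.card ≤ Λ₀ * τ * E₀.card) :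
    ∃ h ≤ ell, ∃ E ⊆ E₀, ∃ vF v1 v2 : ℕ → ℕ, E.Nonempty ∧
      E₀.card ≤ β ^ (6 * (4 * n + 1) * h + 2 * (4 * n + 1) * (CA4 n L R + 1)) * E.card ∧
      FamU (xF (n := n) (K := ℝ)) (fun _ => ()) (β ^ L) β 0 (ell + xA n L R h) E vF ∧
      FamU (xL (n := n) (K := ℝ)) Prod.fst (β ^ L) β 0 (ell + xA n L R h) E v1 ∧
      FamU (xL (n := n) (K := ℝ)) Prod.snd (β ^ L) β 0 (ell + xA n L R h) E v2 ∧
      Lev n (ell + xA n L R h) R vF v1 v2 ∧
      (1 ≤ h → 1 ≤ vF (ell - h) ∨ 1 ≤ v1 (ell - h) ∨ 1 ≤ v2 (ell - h)) := by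
  classical
  have hbN := bmin_ge (2 * n + 1)
  have hβ' : 8 * Λ₀ * ((2 * (n + 1)) ^ n) ^ 2 + bmin (2 * n + 1) + bmin n ≤ β := hβ
  have hβ3 : 3 ≤ β := by omega
  have hβ1 : 1 ≤ β := by omega
  have hL0 : L ≠ 0 := by omega
  set b := β ^ L with hb
  have hbβ : β ≤ b := Nat.le_self_pow hL0 _
  have hb1 : 1 ≤ b := by omega
  obtain ⟨h, hh, E, hEE, hEn, v, hc, hv, hbig, hfirst⟩ :=
    exists_first b β ell hb1 (by omega) E₀ hE₀ (xA n L R)
  set Kf := ell + xA n L R h with hKf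
  have hmemJ : ∀ X : FA, ∀ k ≤ Kf, (X, k) ∈ (univ : Finset FA) ×ˢ range (Kf + 1) :=
    fun X k hk => by
      rw [Finset.mem_product]
      exact ⟨Finset.mem_univ _, Finset.mem_range.2 (by omega)⟩
  have hmono : ∀ X : FA, ∀ k l : ℕ, k ≤ l → l ≤ Kf → v (X, k) ≤ v (X, l) := by
    intro X k l hkl hl
    obtain ⟨e, he, h1⟩ := hv X l hl
    rw [h1]
    exact (hbig.le _ (hmemJ X k (hkl.trans hl)) E (Finset.Subset.refl _) e he).trans
      (cS_mono_lev hb1 X hkl E e)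
  have hle : ∀ X, ∀ k ≤ Kf, v (X, k) ≤ dS n X := fun X k hk => by
    obtain ⟨e, he, h1⟩ := hv X k hk
    rw [h1]
    exact cS_le _ _ _ _ _
  have hinj : ∀ X : FA, Function.Injective (fun k : ℕ => (X, k)) := fun X k l hkl =>
    (Prod.ext_iff.1 hkl).2
  have hF : FamU (xF (n := n) (K := ℝ)) (fun _ => ()) b β 0 Kf E (fun k => v (FA.F, k)) :=
    FamU.of_big hbig hEn (by omega) hb1 (hinj FA.F) (hmemJ FA.F) (fun l _ A e => rfl)
      (hmono FA.F)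
  have h1 : FamU (xL (n := n) (K := ℝ)) Prod.fst b β 0 Kf E (fun k => v (FA.L1, k)) :=
    FamU.of_big hbig hEn (by omega) hb1 (hinj FA.L1) (hmemJ FA.L1) (fun l _ A e => rfl)
      (hmono FA.L1)
  have h2 : FamU (xL (n := n) (K := ℝ)) Prod.snd b β 0 Kf E (fun k => v (FA.L2, k)) :=
    FamU.of_big hbig hEn (by omega) hb1 (hinj FA.L2) (hmemJ FA.L2) (fun l _ A e => rfl)
      (hmono FA.L2)
  have hslope : ∀ k ≤ Kf, (n - v (FA.L1, k)) + (n - v (FA.L2, k)) ≤ (2 * n + 1) - v (FA.F, k) :=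
    fun k hk => slope_fam hβ3 hEn (fun e he => (hadj e (hEE he)).1)
      (fun e he => (hadj e (hEE he)).2) hF h1 h2 hk
  refine ⟨h, hh, E, hEE, fun k => v (FA.F, k), fun k => v (FA.L1, k), fun k => v (FA.L2, k), hEn,
    hc.trans (Nat.mul_le_mul_right _ (Nat.pow_le_pow_right hβ1 (loss_le' hL))), hF, h1, h2,
    ?_, ?_⟩
  · refine ⟨hmono FA.F, hmono FA.L1, hmono FA.L2, hle FA.F, hle FA.L1, hle FA.L2, hslope, ?_⟩
    set Y := xA n L R h - (R + X0 n L + 2) with hY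
    have hRx : R + X0 n L + 2 ≤ xA n L R h := by unfold xA CA4; omega
    set loss := 4 * (4 * n + 1) * h + 2 * (4 * n + 1) * (xA n L R h + 1) with hloss
    have hlY : β ^ loss ≤ b ^ Y := by
      rw [hb, ← pow_mul]
      exact Nat.pow_le_pow_right hβ1 (loss_le hL)
    have hΛ' : Sg₁.card * Sg₂.card ≤ (Λ₀ * τ * b ^ Y) * E.card := by
      calc Sg₁.card * Sg₂.card ≤ Λ₀ * τ * E₀.card := hΛ
        _ ≤ Λ₀ * τ * (b ^ Y * E.card) :=
            Nat.mul_le_mul_left _ (hc.trans (Nat.mul_le_mul_right _ hlY))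
        _ = _ := by ring
    have hr := rank_fam_bi (Λ := Λ₀ * τ * b ^ Y) hb (by omega) (show bmin (2 * n + 1) ≤ b by omega)
      hEn (fun e he => (hadj e (hEE he)).1) (fun e he => (hadj e (hEE he)).2) Sg₁ Sg₂
      (fun e he => hS1 e (hEE he)) (fun e he => hS2 e (hEE he)) hΛ' hF h1 h2
    set SF := ∑ k ∈ range Kf, ((2 * n + 1) - v (FA.F, k)) with hSF
    set S12 := ∑ k ∈ range Kf, ((n - v (FA.L1, k)) + (n - v (FA.L2, k))) with hS12
    have hr2 : b ^ SF ≤ b ^ (X0 n L + (1 + (ell + 1) + Y) + S12) := by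
      refine hr.trans ?_
      have e1 : 8 * (Λ₀ * τ * b ^ Y) * ((2 * (n + 1)) ^ n) ^ 2 ≤ b ^ (1 + (ell + 1) + Y) := by
        calc 8 * (Λ₀ * τ * b ^ Y) * ((2 * (n + 1)) ^ n) ^ 2
            = (8 * Λ₀ * ((2 * (n + 1)) ^ n) ^ 2) * τ * b ^ Y := by ring
          _ ≤ b * b ^ (ell + 1) * b ^ Y := by
              refine Nat.mul_le_mul_right _ (Nat.mul_le_mul ?_ hell)
              omega
          _ = _ := by rw [pow_add b (1 + (ell + 1)) Y, pow_add b 1 (ell + 1), pow_one]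
      calc b ^ X0 n L * (8 * (Λ₀ * τ * b ^ Y) * ((2 * (n + 1)) ^ n) ^ 2) * b ^ S12
          ≤ b ^ X0 n L * b ^ (1 + (ell + 1) + Y) * b ^ S12 :=
            Nat.mul_le_mul_right _ (Nat.mul_le_mul_left _ e1)
        _ = _ := by
            rw [pow_add b (X0 n L + (1 + (ell + 1) + Y)) S12,
              pow_add b (X0 n L) (1 + (ell + 1) + Y)]
    have hr3 : SF ≤ X0 n L + (1 + (ell + 1) + Y) + S12 :=
      (Nat.pow_le_pow_iff_right (by omega)).1 hr2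
    have hsum : ∑ k ∈ range Kf, (((2 * n + 1) - v (FA.F, k)) -
        ((n - v (FA.L1, k)) + (n - v (FA.L2, k)))) + S12 = SF := by
      rw [hS12, hSF, ← Finset.sum_add_distrib]
      refine Finset.sum_congr rfl fun k hk => ?_
      have := hslope k (Finset.mem_range.1 hk).le
      omega
    show ∑ k ∈ range Kf, (((2 * n + 1) - v (FA.F, k)) -
        ((n - v (FA.L1, k)) + (n - v (FA.L2, k)))) + R ≤ Kf
    omega
  · intro hh1
    obtain ⟨X, hX⟩ := hfirst hh1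
    cases X
    · exact Or.inl hX
    · exact Or.inr (Or.inl hX)
    · exact Or.inr (Or.inr hX)

end Vale.Agent.P054.T3.H461
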