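import Vale.Agent.P054.T2.H580.Uni

set_option autoImplicit false
set_option linter.all false

/-!
# P054 / T3: uniformisation over unboundedly many scales

`IsBig`: `E'` maximises `|A| β ^ (∑ minima)` up to the factor `β ^ M`.
`FamU`: the consequences for one family (levels `b ^ i`, `i ≤ K₀`, total degree): a set on which
the value at the level `i` jumps has density at most `β ^ M / β ^ r`, `r` = number of levels
`≥ i` with the same value (distance to the next drop).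
-/

namespace Vale.Agent.P054.T3.H461

open Finset MvPolynomial Module
open Vale.Agent.P054.T2.H307 (vmin vmin_le le_vmin gfr gfr_mono_set gr gr_mono gr_le fib mem_fib
  fib_mono fib_subset self_mem_fib van van_mono mem_van pts mem_pts pts_mono pts_nonempty core
  core_zero core_succ_subset core_anti core_subset core_value mem_core_succ)
open Vale.Agent.P054.T2.H580 (rkF hilbF IsFilt isFilt_total kap fam_good fib_eq one_le_rkF)

section big

variable {ι κ : Type*}

/-- `E'` maximises `|A| β ^ (∑ minima)` up to the factor `β ^ M` -/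
structure IsBig (c : κ → Finset ι → ι → ℕ) (J : Finset κ) (β M : ℕ) (E' : Finset ι)
    (v : κ → ℕ) : Prop where
  le : ∀ j ∈ J, ∀ A ⊆ E', ∀ e ∈ A, v j ≤ c j A e
  big : ∀ A ⊆ E', A.Nonempty → ∀ w : κ → ℕ, (∀ j ∈ J, ∀ e ∈ A, w j ≤ c j A e) →
    A.card * β ^ (∑ j ∈ J, w j) ≤ β ^ M * (E'.card * β ^ (∑ j ∈ J, v j))

/-- **Uniformisation**, strong form. -/
theorem exists_big (E : Finset ι) (hE : E.Nonempty) (J : Finset κ)
    (c : κ → Finset ι → ι → ℕ) (β : ℕ) (hβ : 1 ≤ β)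
    (hmono : ∀ j ∈ J, ∀ A B : Finset ι, A ⊆ B → B ⊆ E → ∀ e ∈ A, c j B e ≤ c j A e) :
    ∃ E' ⊆ E, E'.Nonempty ∧ ∃ v : κ → ℕ, (∀ j ∈ J, ∃ e ∈ E', v j = c j E' e) ∧
      E.card ≤ β ^ (∑ j ∈ J, v j) * E'.card ∧ IsBig c J β 0 E' v := by
  classical
  set F : Finset (Finset ι) := E.powerset.filter (fun A => A.Nonempty) with hF
  have hFne : F.Nonempty := ⟨E, by simp [hF, hE]⟩
  obtain ⟨E', hE'F, hmax⟩ := F.exists_max_image
    (fun A => A.card * β ^ (∑ j ∈ J, vmin c j A)) hFne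
  have hE' : E' ⊆ E ∧ E'.Nonempty := by
    have := Finset.mem_filter.1 hE'F
    exact ⟨Finset.mem_powerset.1 this.1, this.2⟩
  have hmem : ∀ A : Finset ι, A ⊆ E → A.Nonempty → A ∈ F := by
    intro A hA hAn
    exact Finset.mem_filter.2 ⟨Finset.mem_powerset.2 hA, hAn⟩
  refine ⟨E', hE'.1, hE'.2, fun j => vmin c j E', ?_, ?_, ?_, ?_⟩
  · intro j _
    obtain ⟨e, he, h⟩ := Finset.exists_mem_eq_inf' hE'.2 (c j E')
    refine ⟨e, he, ?_⟩
    show vmin c j E' = c j E' e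
    unfold vmin
    rw [dif_pos hE'.2]
    exact h
  · have h1 := hmax E (hmem E (Finset.Subset.refl _) hE)
    have h2 : E.card ≤ E.card * β ^ (∑ j ∈ J, vmin c j E) :=
      Nat.le_mul_of_pos_right _ (Nat.pow_pos hβ)
    calc E.card ≤ E'.card * β ^ (∑ j ∈ J, vmin c j E') := h2.trans h1
      _ = β ^ (∑ j ∈ J, vmin c j E') * E'.card := mul_comm _ _
  · intro j hj A hA e he
    exact (vmin_le c j (hA he)).trans (hmono j hj A E' hA hE'.1 e he)
  · intro A hA hAn w hw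
    rw [pow_zero, one_mul]
    refine le_trans ?_ (hmax A (hmem A (hA.trans hE'.1) hAn))
    refine Nat.mul_le_mul_left _ (Nat.pow_le_pow_right hβ ?_)
    exact Finset.sum_le_sum fun j hj => le_vmin c j hAn (fun e he => hw j hj e he)

/-- passing to a dense subset keeps the values `v` -/
theorem IsBig.subset {c : κ → Finset ι → ι → ℕ} {J : Finset κ} {β M M' : ℕ} {E' E'' : Finset ι}
    {v : κ → ℕ} (h : IsBig c J β M E' v) (hE : E'' ⊆ E') (hc : E'.card ≤ β ^ M' * E''.card) :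
    IsBig c J β (M + M') E'' v := by
  refine ⟨fun j hj A hA => h.le j hj A (hA.trans hE), fun A hA hAn w hw => ?_⟩
  refine (h.big A (hA.trans hE) hAn w hw).trans ?_
  calc β ^ M * (E'.card * β ^ (∑ j ∈ J, v j))
      ≤ β ^ M * ((β ^ M' * E''.card) * β ^ (∑ j ∈ J, v j)) := by gcongr
    _ = β ^ (M + M') * (E''.card * β ^ (∑ j ∈ J, v j)) := by rw [pow_add]; ring

/-- the number of levels `l ≥ i`, `l ≤ K₀`, with `v l = v i` -/
def rem (K₀ : ℕ) (v : ℕ → ℕ) (i : ℕ) : ℕ :=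
  ((range (K₀ + 1)).filter (fun l => i ≤ l ∧ v l = v i)).card

theorem rem_ge {K₀ : ℕ} {v : ℕ → ℕ} {i en : ℕ} (hen : en ≤ K₀ + 1)
    (h : ∀ l, i ≤ l → l < en → v l = v i) : en - i ≤ rem K₀ v i := by
  classical
  have h1 : (Finset.Ico i en) ⊆ (range (K₀ + 1)).filter (fun l => i ≤ l ∧ v l = v i) := by
    intro l hl
    obtain ⟨h2, h3⟩ := Finset.mem_Ico.1 hl
    exact Finset.mem_filter.2 ⟨Finset.mem_range.2 (by omega), h2, h l h2 h3⟩
  have h2 := Finset.card_le_card h1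
  rwa [Nat.card_Ico] at h2

/-- **small sets**: `J` contains the levels `idx l`, `l ≤ K₀`, of a family. -/
theorem IsBig.small {c : κ → Finset ι → ι → ℕ} {J : Finset κ} {β M : ℕ} {E' : Finset ι}
    {v : κ → ℕ} (h : IsBig c J β M E' v) (hβ : 1 ≤ β) {idx : ℕ → κ}
    (hidx : Function.Injective idx) {K₀ : ℕ} (hJ : ∀ l ≤ K₀, idx l ∈ J)
    (hlev : ∀ A ⊆ E', ∀ e ∈ A, ∀ k l : ℕ, k ≤ l → l ≤ K₀ → c (idx k) A e ≤ c (idx l) A e)
    {i : ℕ} (hi : i ≤ K₀) {A : Finset ι} (hA : A ⊆ E') (hAv : ∀ e ∈ A, v (idx i) < c (idx i) A e) :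
    β ^ rem K₀ (fun l => v (idx l)) i * A.card ≤ β ^ M * E'.card := by
  classical
  rcases A.eq_empty_or_nonempty with rfl | hAn
  · simp
  set R : Finset ℕ := (range (K₀ + 1)).filter (fun l => i ≤ l ∧ v (idx l) = v (idx i)) with hR
  set w : κ → ℕ := fun j => v j + if j ∈ R.image idx then 1 else 0 with hw
  have hRJ : R.image idx ⊆ J := by
    intro j hj
    obtain ⟨l, hl, rfl⟩ := Finset.mem_image.1 hj
    have := Finset.mem_range.1 (Finset.mem_filter.1 hl).1
    exact hJ l (by omega)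
  have hwle : ∀ j ∈ J, ∀ e ∈ A, w j ≤ c j A e := by
    intro j hj e he
    by_cases hjR : j ∈ R.image idx
    · obtain ⟨l, hl, rfl⟩ := Finset.mem_image.1 hjR
      obtain ⟨h1, h2, h3⟩ := Finset.mem_filter.1 hl
      have hlK : l ≤ K₀ := by have := Finset.mem_range.1 h1; omega
      have h4 := hAv e he
      have h5 := hlev A hA e he i l h2 hlK
      show v (idx l) + (if idx l ∈ R.image idx then 1 else 0) ≤ c (idx l) A e
      rw [if_pos hjR, h3]
      omega
    · show v j + (if j ∈ R.image idx then 1 else 0) ≤ c j A e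
      rw [if_neg hjR, Nat.add_zero]
      exact h.le j hj A hA e he
  have h1 := h.big A hA hAn w hwle
  have h2 : ∑ j ∈ J, w j = (∑ j ∈ J, v j) + R.card := by
    show ∑ j ∈ J, (v j + if j ∈ R.image idx then 1 else 0) = _
    rw [Finset.sum_add_distrib, Finset.sum_ite_mem, Finset.inter_eq_right.2 hRJ]
    simp only [Finset.sum_const, smul_eq_mul, mul_one]
    rw [Finset.card_image_of_injective _ hidx]
  have h3 : rem K₀ (fun l => v (idx l)) i = R.card := rfl
  rw [h3]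
  rw [h2, pow_add] at h1
  have hpos : 0 < β ^ (∑ j ∈ J, v j) := Nat.pow_pos hβ
  refine Nat.le_of_mul_le_mul_right ?_ hpos
  calc β ^ R.card * A.card * β ^ (∑ j ∈ J, v j)
      = A.card * (β ^ (∑ j ∈ J, v j) * β ^ R.card) := by ring
    _ ≤ β ^ M * (E'.card * β ^ (∑ j ∈ J, v j)) := h1
    _ = _ := by ring

end big

section fam

variable {ι S σ K : Type*} [Field K] [Fintype σ] [DecidableEq σ]

/-- the family of the gradient ranks of `(x, p)` at the levels `b ^ i`, `i ≤ K₀` (total degree),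
over the set `E`, with the values `v` -/
structure FamU (x : ι → σ → K) (p : ι → S) (b β M K₀ : ℕ) (E : Finset ι) (v : ℕ → ℕ) : Prop where
  mono : ∀ k l : ℕ, k ≤ l → l ≤ K₀ → v k ≤ v l
  le : ∀ i ≤ K₀, ∀ A ⊆ E, ∀ e ∈ A, v i ≤ gfr x p (restrictTotalDegree σ K) (b ^ i) A e
  small : ∀ i ≤ K₀, ∀ A ⊆ E, (∀ e ∈ A, v i < gfr x p (restrictTotalDegree σ K) (b ^ i) A e) →
    β ^ rem K₀ v i * A.card ≤ β ^ M * E.card

theorem rtd_mono {a b : ℕ} (h : a ≤ b) :
    restrictTotalDegree σ K a ≤ restrictTotalDegree σ K b := by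
  intro g hg
  rw [mem_restrictTotalDegree] at hg ⊢
  exact hg.trans h

theorem FamU.le_card {x : ι → σ → K} {p : ι → S} {b β M K₀ : ℕ} {E : Finset ι} {v : ℕ → ℕ}
    (h : FamU x p b β M K₀ E v) (hE : E.Nonempty) {i : ℕ} (hi : i ≤ K₀) :
    v i ≤ Fintype.card σ := by
  obtain ⟨e, he⟩ := hE
  exact (h.le i hi E (Finset.Subset.refl _) e he).trans
    (Vale.Agent.P054.T2.H307.gfr_le _ _ _ _ _ _)

/-- the system of the level `k₀` in every fibre -/
theorem FamU.sys [Infinite K] {x : ι → σ → K} {p : ι → S} {b β M K₀ : ℕ} {E : Finset ι}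
    {v : ℕ → ℕ} (h : FamU x p b β M K₀ E v) {k₀ : ℕ} (hk₀ : k₀ ≤ K₀) :
    ∃ f : S → Fin (v k₀) → MvPolynomial σ K,
      (∀ s, ∀ j : Fin (v k₀), f s j ∈ van x (fib p E s)
        (restrictTotalDegree σ K (b ^ kap (k₀ + 1) v (j : ℕ)))) ∧
      ∀ e ∈ E, LinearIndependent K (fun j => Vale.Agent.P054.T2.H930.grad (x e) (f (p e) j)) := by
  have key : ∀ s : S, ∃ f : Fin (v k₀) → MvPolynomial σ K,
      (∀ j : Fin (v k₀), f j ∈ van x (fib p E s)
        (restrictTotalDegree σ K (b ^ kap (k₀ + 1) v (j : ℕ)))) ∧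
      ∀ e ∈ fib p E s, LinearIndependent K
        (fun j => Vale.Agent.P054.T2.H930.grad (x e) (f j)) := by
    intro s
    obtain ⟨f, hf, hind⟩ := Vale.Agent.P054.T2.H580.exists_sys (K := K) (fib p E s)
      (fun e => Vale.Agent.P054.T2.H307.grad (x e))
      (fun k => van x (fib p E s) (restrictTotalDegree σ K (b ^ k))) (k₀ + 1) (Nat.succ_pos _) v
      (fun k l hkl hl => h.mono k l hkl (by omega))
      (by
        intro k hk e he
        obtain ⟨he1, he2⟩ := mem_fib.1 he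
        have h1 := h.le k (by omega) E (Finset.Subset.refl _) e he1
        unfold gfr at h1
        rw [he2] at h1
        exact h1)
      (v k₀) (by simp)
    exact ⟨f, hf, hind⟩
  choose f hf hind using key
  exact ⟨f, hf, fun e he => hind (p e) e (mem_fib.2 ⟨he, rfl⟩)⟩

/-- from `IsBig` to one family -/
theorem FamU.of_big {κ : Type*} {c : κ → Finset ι → ι → ℕ} {J : Finset κ} {β M : ℕ}
    {E : Finset ι} {v : κ → ℕ} (h : IsBig c J β M E v) (hE : E.Nonempty) (hβ : 2 ≤ β)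
    {b K₀ : ℕ} (hb : 1 ≤ b) {x : ι → σ → K} {p : ι → S} {idx : ℕ → κ}
    (hidx : Function.Injective idx) (hJ : ∀ l ≤ K₀, idx l ∈ J)
    (hc : ∀ l ≤ K₀, ∀ A e, c (idx l) A e = gfr x p (restrictTotalDegree σ K) (b ^ l) A e)
    (hv : ∀ k l : ℕ, k ≤ l → l ≤ K₀ → v (idx k) ≤ v (idx l)) :
    FamU x p b β M K₀ E (fun l => v (idx l)) := by
  have hlev : ∀ A ⊆ E, ∀ e ∈ A, ∀ k l : ℕ, k ≤ l → l ≤ K₀ → c (idx k) A e ≤ c (idx l) A e := by
    intro A _ e _ k l hkl hl
    rw [hc k (hkl.trans hl), hc l hl]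
    exact gr_mono (Finset.Subset.refl _) (rtd_mono (Nat.pow_le_pow_right hb hkl)) _
  refine ⟨hv, ?_, ?_⟩
  · intro i hi A hA e he
    rw [← hc i hi]
    exact h.le _ (hJ i hi) A hA e he
  · intro i hi A hA hAv
    refine h.small (by omega) hidx hJ hlev hi hA fun e he => ?_
    rw [hc i hi]
    exact hAv e he

end fam

end Vale.Agent.P054.T3.H461
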